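import Mathlib

/-!
# P318, module NODE (section 6): node by node gluing, abstract form

`A` is the additive group of mod-2 measures, `T v x : A →+ A` the push-forward under the
operator of node `v` with seed `x`, `sz` the size (number of atoms).  Everything which is
needed from the geometry is: operators of incomparable nodes commute, a small measure killed by
all seeds of one node is zero (`uniq`), and three-coordinate gluing (`glue`).
-/

namespace Vale.Agent.P318.H653

open Finset

section Abstract

variable {N Sd A : Type*} [Fintype N] [DecidableEq N] [AddCommGroup A]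

/-- `R` is closed under going up (`below v w` : `v` is a proper descendant of `w`). -/
def Upper (below : N → N → Prop) (R : Finset N) : Prop :=
  ∀ v w, below v w → v ∈ R → w ∈ R

/-- `v` is a minimal node of `R`. -/
def MinIn (below : N → N → Prop) (R : Finset N) (v : N) : Prop :=
  v ∈ R ∧ ∀ w ∈ R, ¬ below w v

/-- `y` is a point of the grid `∏ S v`. -/
def InGrid (S : N → Finset Sd) (y : N → Sd) : Prop := ∀ v, y v ∈ S v

omit [Fintype N] in
theorem Upper.erase {below : N → N → Prop} {R : Finset N} (hR : Upper below R) {v : N}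
    (hv : MinIn below R v) : Upper below (R.erase v) := by
  intro u w huw hu
  rw [mem_erase] at hu ⊢
  refine ⟨?_, hR u w huw hu.2⟩
  rintro rfl
  exact hv.2 u hu.2 huw

omit [Fintype N] in
theorem MinIn.erase {below : N → N → Prop} {R : Finset N} {v w : N} (hv : MinIn below R v)
    (hvw : v ≠ w) : MinIn below (R.erase w) v := by
  refine ⟨mem_erase.2 ⟨hvw, hv.1⟩, fun u hu => hv.2 u (mem_of_mem_erase hu)⟩

omit [Fintype N] [DecidableEq N] in
theorem upper_univ [Fintype N] (below : N → N → Prop) : Upper below (univ : Finset N) :=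
  fun _ _ _ _ => mem_univ _

omit [Fintype N] in
theorem InGrid.update {S : N → Finset Sd} {y : N → Sd} (hy : InGrid S y) {v : N} {x : Sd}
    (hx : x ∈ S v) : InGrid S (Function.update y v x) := by
  intro w
  by_cases h : w = v
  · subst h; simpa using hx
  · rw [Function.update_of_ne h]; exact hy w

/-- Incomparable nodes. -/
def Incomp (below : N → N → Prop) (v w : N) : Prop := v ≠ w ∧ ¬ below v w ∧ ¬ below w v

omit [Fintype N] [DecidableEq N] in
theorem incomp_of_min {below : N → N → Prop} {R : Finset N} {v w : N} (hv : MinIn below R v)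
    (hw : MinIn below R w) (h : v ≠ w) : Incomp below v w :=
  ⟨h, hw.2 v hv.1, hv.2 w hw.1⟩

/-- The abstract data for node by node gluing. -/
structure NodeSys (N Sd A : Type*) [AddCommGroup A] where
  /-- `below v w` : `v` is a proper descendant of `w` -/
  below : N → N → Prop
  /-- a rank function -/
  rk : N → ℕ
  rk_lt : ∀ v w, below v w → rk v < rk w
  /-- the grid of seeds -/
  S : N → Finset Sd
  S_ne : ∀ v, (S v).Nonempty
  /-- the operators on measures -/
  T : N → Sd → A →+ A
  comm : ∀ v w, Incomp below v w → ∀ x y a, T v x (T w y a) = T w y (T v x a)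
  /-- size of a measure -/
  sz : A → ℝ
  sz_sub : ∀ a b, sz (a - b) ≤ sz a + sz b
  sz_T : ∀ v x a, sz (T v x a) ≤ sz a
  /-- the bound for uniqueness -/
  W0 : ℝ
  uniq : ∀ v a, sz a ≤ W0 → (∀ x ∈ S v, T v x a = 0) → a = 0
  /-- growth of the size in one gluing -/
  ρ : ℝ
  one_le_ρ : 1 ≤ ρ
  /-- the largest size allowed in a gluing -/
  W1 : ℝ
  W1_le : 4 * W1 ≤ W0
  glue : ∀ a b c, Incomp below a b → Incomp below a c → Incomp below b c →
    ∀ (B : ℝ), B ≤ W1 → ∀ F G H : Sd → A,
    (∀ x ∈ S a, sz (F x) ≤ B) → (∀ y ∈ S b, sz (G y) ≤ B) → (∀ z ∈ S c, sz (H z) ≤ B) →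
    (∀ x ∈ S a, ∀ y ∈ S b, T b y (F x) = T a x (G y)) →
    (∀ x ∈ S a, ∀ z ∈ S c, T c z (F x) = T a x (H z)) →
    (∀ y ∈ S b, ∀ z ∈ S c, T c z (G y) = T b y (H z)) →
    ∃ U : A, sz U ≤ ρ * B ∧ (∀ x ∈ S a, T a x U = F x) ∧ (∀ y ∈ S b, T b y U = G y) ∧
      (∀ z ∈ S c, T c z U = H z)

/-- The hypotheses on the given family of measures on the views. -/
structure ViewFam (D : NodeSys N Sd A) (isView : Finset N → Prop)
    (mu : Finset N → (N → Sd) → A) (W : ℝ) : Prop where
  view_erase : ∀ R v, Upper D.below R → isView R → MinIn D.below R v → isView (R.erase v)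
  three : ∀ R, Upper D.below R → ¬ isView R → ∃ a b c, a ≠ b ∧ a ≠ c ∧ b ≠ c ∧
    MinIn D.below R a ∧ MinIn D.below R b ∧ MinIn D.below R c
  indep : ∀ R, Upper D.below R → isView R → ∀ y y', InGrid D.S y → InGrid D.S y' →
    (∀ w, w ∉ R → y w = y' w) → mu R y = mu R y'
  cons : ∀ R v, Upper D.below R → isView R → MinIn D.below R v → ∀ y, InGrid D.S y →
    D.T v (y v) (mu R y) = mu (R.erase v) y
  size : ∀ R, Upper D.below R → isView R → ∀ y, InGrid D.S y → D.sz (mu R y) ≤ W

variable {D : NodeSys N Sd A} {isView : Finset N → Prop} {mu : Finset N → (N → Sd) → A} {W : ℝ}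

/-- The statement which is proved by induction on the size of `R`. -/
def ExtUpTo (D : NodeSys N Sd A) (isView : Finset N → Prop)
    (mu : Finset N → (N → Sd) → A) (W : ℝ) (k : ℕ) (mu' : Finset N → (N → Sd) → A) : Prop :=
  ∀ R, Upper D.below R → R.card ≤ k →
    (isView R → ∀ y, InGrid D.S y → mu' R y = mu R y) ∧
    (∀ y y', InGrid D.S y → InGrid D.S y' → (∀ w, w ∉ R → y w = y' w) → mu' R y = mu' R y') ∧
    (∀ v, MinIn D.below R v → ∀ y, InGrid D.S y →
      D.T v (y v) (mu' R y) = mu' (R.erase v) y) ∧
    (∀ y, InGrid D.S y → D.sz (mu' R y) ≤ D.ρ ^ k * W)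

omit [Fintype N] [DecidableEq N] in
theorem eq_of_sz (D : NodeSys N Sd A) {v : N} {a b : A} {B : ℝ} (hB : B ≤ 2 * D.W1)
    (ha : D.sz a ≤ B) (hb : D.sz b ≤ B) (h : ∀ x ∈ D.S v, D.T v x a = D.T v x b) : a = b := by
  have h4 := D.W1_le
  have := D.uniq v (a - b) (by have := D.sz_sub a b; linarith)
    (fun x hx => by rw [map_sub, h x hx, sub_self])
  exact sub_eq_zero.1 this

omit [Fintype N] in
/-- One step: gluing at a set with at least three minimal nodes. -/
theorem glue_step (hF : ViewFam D isView mu W) (hW0 : 0 ≤ W) {k : ℕ}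
    (hW1 : D.ρ ^ (k + 1) * W ≤ D.W1) {mu' : Finset N → (N → Sd) → A}
    (h : ExtUpTo D isView mu W k mu') {R : Finset N} (hR : Upper D.below R)
    (hk : R.card = k + 1) (hnv : ¬ isView R) {y : N → Sd} (hy : InGrid D.S y) :
    ∃ U : A, D.sz U ≤ D.ρ ^ (k + 1) * W ∧ ∀ v, MinIn D.below R v → ∀ x ∈ D.S v,
      D.T v x U = mu' (R.erase v) (Function.update y v x) := by
  obtain ⟨a, b, c, hab, hac, hbc, ha, hb, hc⟩ := hF.three R hR hnv
  have hρ : 0 ≤ D.ρ := le_trans zero_le_one D.one_le_ρ
  have hcard : ∀ v, MinIn D.below R v → (R.erase v).card ≤ k := fun v hv => by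
    rw [card_erase_of_mem hv.1, hk]; simp
  have hle : D.ρ ^ k * W ≤ D.ρ ^ (k + 1) * W :=
    mul_le_mul_of_nonneg_right (pow_le_pow_right₀ D.one_le_ρ (Nat.le_succ k)) hW0
  have hpos : 0 ≤ D.ρ ^ (k + 1) * W := mul_nonneg (pow_nonneg hρ _) hW0
  have hsize : ∀ v, MinIn D.below R v → ∀ x ∈ D.S v,
      D.sz (mu' (R.erase v) (Function.update y v x)) ≤ D.ρ ^ k * W := fun v hv x hx =>
    (h (R.erase v) (hR.erase hv) (hcard v hv)).2.2.2 _ (hy.update hx)
  -- consistency
  have hcons : ∀ v w, MinIn D.below R v → MinIn D.below R w → v ≠ w → ∀ x ∈ D.S v,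
      ∀ z ∈ D.S w, D.T w z (mu' (R.erase v) (Function.update y v x))
        = D.T v x (mu' (R.erase w) (Function.update y w z)) := by
    intro v w hv hw hvw x hx z hz
    set y2 := Function.update (Function.update y v x) w z with hy2
    have hy2' : y2 = Function.update (Function.update y w z) v x := by
      rw [hy2, Function.update_comm hvw]
    have hg2 : InGrid D.S y2 := (hy.update hx).update hz
    have e1 : mu' (R.erase v) (Function.update y v x) = mu' (R.erase v) y2 := by
      refine (h (R.erase v) (hR.erase hv) (hcard v hv)).2.1 _ _ (hy.update hx) hg2 ?_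
      intro u hu
      have huw : u ≠ w := by
        rintro rfl
        exact hu (mem_erase.2 ⟨hvw.symm, hw.1⟩)
      rw [hy2, Function.update_of_ne huw]
    have e2 : mu' (R.erase w) (Function.update y w z) = mu' (R.erase w) y2 := by
      refine (h (R.erase w) (hR.erase hw) (hcard w hw)).2.1 _ _ (hy.update hz) hg2 ?_
      intro u hu
      have huw : u ≠ v := by
        rintro rfl
        exact hu (mem_erase.2 ⟨hvw, hv.1⟩)
      rw [hy2', Function.update_of_ne huw]
    have hzw : y2 w = z := by rw [hy2, Function.update_self]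
    have hxv : y2 v = x := by rw [hy2', Function.update_self]
    have f1 := (h (R.erase v) (hR.erase hv) (hcard v hv)).2.2.1 w (hw.erase hvw.symm) y2 hg2
    have f2 := (h (R.erase w) (hR.erase hw) (hcard w hw)).2.2.1 v (hv.erase hvw) y2 hg2
    rw [hzw] at f1
    rw [hxv] at f2
    rw [e1, e2, f1, f2, erase_right_comm]
  obtain ⟨U, hU, hUa, hUb, hUc⟩ := D.glue a b c (incomp_of_min ha hb hab)
    (incomp_of_min ha hc hac) (incomp_of_min hb hc hbc) (D.ρ ^ k * W) (hle.trans hW1)
    (fun x => mu' (R.erase a) (Function.update y a x))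
    (fun x => mu' (R.erase b) (Function.update y b x))
    (fun x => mu' (R.erase c) (Function.update y c x))
    (hsize a ha) (hsize b hb) (hsize c hc)
    (fun x hx z hz => hcons a b ha hb hab x hx z hz)
    (fun x hx z hz => hcons a c ha hc hac x hx z hz)
    (fun x hx z hz => hcons b c hb hc hbc x hx z hz)
  have hUs : D.sz U ≤ D.ρ ^ (k + 1) * W := by
    rw [pow_succ, mul_comm (D.ρ ^ k) D.ρ, mul_assoc]; exact hU
  refine ⟨U, hUs, ?_⟩
  intro w hw x hx
  by_cases hwa : w = a
  · subst hwa; exact hUa x hx
  have hI := incomp_of_min hw ha hwa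
  -- apply uniqueness along `a`
  refine eq_of_sz D (v := a) (B := D.ρ ^ (k + 1) * W) (by linarith)
    ((D.sz_T w x U).trans hUs) ((hsize w hw x hx).trans hle) ?_
  intro x' hx'
  rw [← D.comm w a hI x x' U, hUa x' hx']
  exact hcons a w ha hw (Ne.symm hwa) x' hx' x hx

omit [Fintype N] in
theorem ext_exists (hF : ViewFam D isView mu W) (hW0 : 0 ≤ W) :
    ∀ k : ℕ, D.ρ ^ k * W ≤ D.W1 → ∃ mu', ExtUpTo D isView mu W k mu' := by
  classical
  intro k
  induction k with
  | zero =>
    intro _
    refine ⟨mu, ?_⟩
    intro R hR hk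
    have hR0 : R = ∅ := by simpa using hk
    have hv : isView R := by
      by_contra hnv
      obtain ⟨a, b, c, _, _, _, ha, _, _⟩ := hF.three R hR hnv
      rw [hR0] at ha
      exact absurd ha.1 (notMem_empty a)
    refine ⟨fun _ _ _ => rfl, hF.indep R hR hv, fun v hv' y hy => hF.cons R v hR hv hv' y hy, ?_⟩
    intro y hy
    simpa using hF.size R hR hv y hy
  | succ k ih =>
    intro hW1
    have hle : D.ρ ^ k * W ≤ D.ρ ^ (k + 1) * W :=
      mul_le_mul_of_nonneg_right (pow_le_pow_right₀ D.one_le_ρ (Nat.le_succ k)) hW0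
    have hpos : 0 ≤ D.ρ ^ (k + 1) * W :=
      mul_nonneg (pow_nonneg (le_trans zero_le_one D.one_le_ρ) _) hW0
    have hW_le : W ≤ D.ρ ^ (k + 1) * W := le_mul_of_one_le_left hW0
      (one_le_pow₀ D.one_le_ρ)
    obtain ⟨mu', h⟩ := ih (hle.trans hW1)
    -- the property of the new measure
    let good : Finset N → (N → Sd) → A → Prop := fun R y U =>
      D.sz U ≤ D.ρ ^ (k + 1) * W ∧ ∀ v, MinIn D.below R v → ∀ x ∈ D.S v,
        D.T v x U = mu' (R.erase v) (Function.update y v x)
    let mu'' : Finset N → (N → Sd) → A := fun R y =>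
      if R.card ≤ k then mu' R y
      else if isView R then mu R y
      else if hh : ∃ U, good R y U then hh.choose else 0
    refine ⟨mu'', ?_⟩
    intro R hR hk
    by_cases hk' : R.card ≤ k
    · have e : ∀ y, mu'' R y = mu' R y := fun y => by simp only [mu'', if_pos hk']
      have e' : ∀ v y, mu'' (R.erase v) y = mu' (R.erase v) y := fun v y => by
        have : (R.erase v).card ≤ k := (card_erase_le).trans hk'
        simp only [mu'', if_pos this]
      obtain ⟨h1, h2, h3, h4⟩ := h R hR hk'
      refine ⟨fun hv y hy => by rw [e, h1 hv y hy], fun y y' hy hy' hyy => by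
        rw [e, e, h2 y y' hy hy' hyy], fun v hv y hy => by rw [e, e', h3 v hv y hy],
        fun y hy => by rw [e]; exact (h4 y hy).trans hle⟩
    have hkk : R.card = k + 1 := by omega
    have e' : ∀ v, v ∈ R → ∀ y, mu'' (R.erase v) y = mu' (R.erase v) y := fun v hv y => by
      have : (R.erase v).card ≤ k := by rw [card_erase_of_mem hv, hkk]; simp
      simp only [mu'', if_pos this]
    by_cases hv : isView R
    · have e : ∀ y, mu'' R y = mu R y := fun y => by simp only [mu'', if_neg hk', if_pos hv]
      refine ⟨fun _ y _ => e y, fun y y' hy hy' hyy => by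
        rw [e, e]; exact hF.indep R hR hv y y' hy hy' hyy, ?_, fun y hy => by
        rw [e]; exact (hF.size R hR hv y hy).trans hW_le⟩
      intro v hvm y hy
      rw [e, e' v hvm.1, hF.cons R v hR hv hvm y hy]
      have hc : (R.erase v).card ≤ k := by rw [card_erase_of_mem hvm.1, hkk]; simp
      exact ((h (R.erase v) (hR.erase hvm) hc).1 (hF.view_erase R v hR hv hvm) y hy).symm
    · have hex : ∀ y, InGrid D.S y → ∃ U, good R y U := fun y hy =>
        glue_step hF hW0 hW1 h hR hkk hv hy
      have hgood : ∀ y, InGrid D.S y → good R y (mu'' R y) := fun y hy => by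
        have : mu'' R y = (hex y hy).choose := by
          simp only [mu'', if_neg hk', if_neg hv, dif_pos (hex y hy)]
        rw [this]
        exact (hex y hy).choose_spec
      obtain ⟨a, b, c, hab, hac, hbc, ha, hb, hc⟩ := hF.three R hR hv
      refine ⟨fun h' => absurd h' hv, ?_, ?_, fun y hy => (hgood y hy).1⟩
      · intro y y' hy hy' hyy
        refine eq_of_sz D (v := a) (B := D.ρ ^ (k + 1) * W) (by linarith)
          (hgood y hy).1 (hgood y' hy').1 ?_
        intro x hx
        rw [(hgood y hy).2 a ha x hx, (hgood y' hy').2 a ha x hx]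
        have hca : (R.erase a).card ≤ k := by rw [card_erase_of_mem ha.1, hkk]; simp
        refine (h (R.erase a) (hR.erase ha) hca).2.1 _ _ (hy.update hx) (hy'.update hx) ?_
        intro w hw
        by_cases hwa : w = a
        · subst hwa; simp
        · rw [Function.update_of_ne hwa, Function.update_of_ne hwa]
          exact hyy w (fun hwR => hw (mem_erase.2 ⟨hwa, hwR⟩))
      · intro v hvm y hy
        rw [e' v hvm.1, (hgood y hy).2 v hvm (y v) (hy v), Function.update_eq_self]

/-- Going up: a nonempty complement of an upper set contains a node which can be added. -/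
theorem exists_add (D : NodeSys N Sd A) {R : Finset N} (hR : Upper D.below R)
    (hne : R ≠ univ) : ∃ v, v ∉ R ∧ Upper D.below (insert v R) ∧ MinIn D.below (insert v R) v := by
  have hne' : (univ \ R).Nonempty := by
    rw [sdiff_nonempty]
    intro h
    exact hne (univ_subset_iff.1 h)
  obtain ⟨v, hv, hmax⟩ := exists_max_image (univ \ R) D.rk hne'
  have hvR : v ∉ R := by simpa using hv
  refine ⟨v, hvR, ?_, mem_insert_self v R, ?_⟩
  · intro u w huw hu
    rw [mem_insert] at hu ⊢
    rcases hu with rfl | hu
    · by_contra hcon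
      push Not at hcon
      have := hmax w (by simpa using hcon.2)
      have := D.rk_lt _ _ huw
      omega
    · exact Or.inr (hR u w huw hu)
  · intro w hw hwv
    rw [mem_insert] at hw
    rcases hw with rfl | hw
    · exact lt_irrefl _ (D.rk_lt _ _ hwv)
    · exact hvR (hR w v hwv hw)

/-- Induction over upper sets from the top. -/
theorem upper_induction (D : NodeSys N Sd A) {P : Finset N → Prop} (htop : P univ)
    (hstep : ∀ R v, Upper D.below R → MinIn D.below R v → P R → P (R.erase v)) :
    ∀ R, Upper D.below R → P R := by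
  intro R
  generalize hn : (univ \ R).card = n
  induction n generalizing R with
  | zero =>
    intro _
    have : univ \ R = ∅ := card_eq_zero.1 hn
    rw [sdiff_eq_empty_iff_subset, univ_subset_iff] at this
    rw [this]; exact htop
  | succ n ih =>
    intro hR
    have hne : R ≠ univ := by rintro rfl; simp at hn
    obtain ⟨v, hvR, hU, hM⟩ := exists_add D hR hne
    have hc : (univ \ insert v R).card = n := by
      have : univ \ R = insert v (univ \ insert v R) := by
        ext w
        simp only [mem_sdiff, mem_univ, true_and, mem_insert, not_or]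
        by_cases h : w = v
        · subst h; simp [hvR]
        · simp [h]
      rw [this, card_insert_of_notMem (by simp)] at hn
      omega
    have := hstep _ v hU hM (ih _ hc hU)
    rwa [erase_insert hvR] at this

/-- The composite operators of the views. -/
structure ViewOp (D : NodeSys N Sd A) (V : Finset N → (N → Sd) → A →+ A) : Prop where
  top : ∀ y a, V univ y a = a
  step : ∀ R v, Upper D.below R → MinIn D.below R v → ∀ y a,
    V (R.erase v) y a = D.T v (y v) (V R y a)
  indep : ∀ R, Upper D.below R → ∀ y y', (∀ w, w ∉ R → y w = y' w) → ∀ a, V R y a = V R y' a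

variable {V : Finset N → (N → Sd) → A →+ A}

/-- **Theorem 6** (node by node gluing, abstract form), existence. -/
theorem node_exists (hV : ViewOp D V) (hF : ViewFam D isView mu W) (hW0 : 0 ≤ W)
    (hW1 : D.ρ ^ Fintype.card N * W ≤ D.W1) :
    ∃ U : A, D.sz U ≤ D.ρ ^ Fintype.card N * W ∧
      ∀ R, Upper D.below R → isView R → ∀ y, InGrid D.S y → V R y U = mu R y := by
  classical
  obtain ⟨mu', h⟩ := ext_exists hF hW0 (Fintype.card N) hW1
  let y0 : N → Sd := fun v => (D.S_ne v).choose
  have hy0 : InGrid D.S y0 := fun v => (D.S_ne v).choose_spec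
  have hcard : ∀ R : Finset N, R.card ≤ Fintype.card N := fun R => card_le_univ R
  refine ⟨mu' univ y0, (h univ (upper_univ _) (hcard _)).2.2.2 y0 hy0, ?_⟩
  have key : ∀ R, Upper D.below R → ∀ y, InGrid D.S y → V R y (mu' univ y0) = mu' R y := by
    refine upper_induction D ?_ ?_
    · intro y hy
      rw [hV.top]
      exact (h univ (upper_univ _) (hcard _)).2.1 _ _ hy0 hy (fun w hw => absurd (mem_univ w) hw)
    · intro R v hR hv ih y hy
      rw [hV.step R v hR hv, ih y hy]
      exact (h R hR (hcard _)).2.2.1 v hv y hy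
  intro R hR hv y hy
  rw [key R hR y hy]
  exact (h R hR (hcard _)).1 hv y hy

/-- **Theorem 6**, uniqueness: a measure of size at most `W0` which is killed by all
completely compressed views is zero. -/
theorem node_uniq (hV : ViewOp D V) {a : A} (ha : D.sz a ≤ D.W0)
    (h : ∀ y, InGrid D.S y → V ∅ y a = 0) : a = 0 := by
  classical
  have hsz : ∀ R, Upper D.below R → ∀ y, D.sz (V R y a) ≤ D.sz a := by
    refine upper_induction D ?_ ?_
    · intro y; rw [hV.top]
    · intro R v hR hv ih y
      rw [hV.step R v hR hv]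
      exact (D.sz_T _ _ _).trans (ih y)
  have key : ∀ n : ℕ, ∀ R, Upper D.below R → R.card = n → ∀ y, InGrid D.S y → V R y a = 0 := by
    intro n
    induction n with
    | zero =>
      intro R _ hR0 y hy
      rw [card_eq_zero.1 hR0]; exact h y hy
    | succ n ih =>
      intro R hR hc y hy
      have hne : R.Nonempty := by rw [← card_pos]; omega
      obtain ⟨v, hv, hmin⟩ := exists_min_image R D.rk hne
      have hvm : MinIn D.below R v := ⟨hv, fun w hw hwv =>
        absurd (D.rk_lt _ _ hwv) (not_lt.2 (hmin w hw))⟩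
      refine D.uniq v _ ((hsz R hR y).trans ha) ?_
      intro x hx
      have e : V R y a = V R (Function.update y v x) a :=
        hV.indep R hR _ _ (fun w hw => by
          have : w ≠ v := by rintro rfl; exact hw hv
          rw [Function.update_of_ne this]) a
      have hstep := hV.step R v hR hvm (Function.update y v x) a
      rw [Function.update_self] at hstep
      rw [e, ← hstep]
      exact ih _ (hR.erase hvm) (by rw [card_erase_of_mem hv, hc]; simp) _ (hy.update hx)
  have hy0 : InGrid D.S (fun v => (D.S_ne v).choose) := fun v => (D.S_ne v).choose_spec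
  have := key _ univ (upper_univ _) rfl _ hy0
  rwa [hV.top] at this

end Abstract

end Vale.Agent.P318.H653
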