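import Vale.Agent.P318.H937.Spec
import Vale.Agent.P318.H653.Node

/-!
# P318, module NODE: `SpecGLUE → SpecNODE`
-/

namespace Vale.Agent.P318.H653

open Finset
open Vale.Agent.P318

/-! ## Elementary facts on mod-2 measures -/

section Meas

variable {X Y Z : Type} [Fintype X] [Fintype Y] [Fintype Z] [DecidableEq Y] [DecidableEq Z]

omit [Fintype Y] in
theorem push_add (f : X → Y) (μ ν : X → ZMod 2) :
    H937.push f (μ + ν) = H937.push f μ + H937.push f ν := by
  funext y
  simp [H937.push, sum_add_distrib]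

omit [Fintype Y] in
theorem push_zero (f : X → Y) : H937.push f (0 : X → ZMod 2) = 0 := by
  funext y
  simp [H937.push]

omit [Fintype Z] in
theorem push_push (f : X → Y) (g : Y → Z) (μ : X → ZMod 2) :
    H937.push g (H937.push f μ) = H937.push (g ∘ f) μ := by
  funext z
  unfold H937.push
  rw [← sum_fiberwise_of_maps_to (s := univ.filter fun x => (g ∘ f) x = z)
    (t := univ.filter fun y => g y = z) (g := f) (fun x hx => by simpa using hx)]
  refine sum_congr rfl fun y hy => ?_
  refine sum_congr ?_ fun _ _ => rfl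
  ext x
  simp only [mem_filter, mem_univ, true_and, Function.comp_apply] at hy ⊢
  constructor
  · rintro rfl; exact ⟨hy, rfl⟩
  · exact fun h => h.2

theorem push_id [DecidableEq X] (μ : X → ZMod 2) : H937.push (fun x => x) μ = μ := by
  funext x
  unfold H937.push
  rw [sum_eq_single x]
  · intro b hb hbx
    exact absurd (mem_filter.1 hb).2 hbx
  · intro h
    exact absurd (mem_filter.2 ⟨mem_univ x, rfl⟩ : x ∈ univ.filter fun y => (fun z => z) y = x) h

theorem sz_sub_le (μ ν : X → ZMod 2) : H937.sz (μ - ν) ≤ H937.sz μ + H937.sz ν := by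
  classical
  unfold H937.sz
  refine (card_le_card ?_).trans (card_union_le _ _)
  intro x hx
  simp only [mem_union, mem_filter, mem_univ, true_and, Pi.sub_apply] at hx ⊢
  by_contra h
  push Not at h
  rw [h.1, h.2, sub_zero] at hx
  exact hx rfl

theorem sz_push_le (f : X → Y) (μ : X → ZMod 2) : H937.sz (H937.push f μ) ≤ H937.sz μ := by
  classical
  unfold H937.sz
  refine (card_le_card (t := (univ.filter fun x => μ x ≠ 0).image f) ?_).trans card_image_le
  intro y hy
  simp only [mem_filter, mem_univ, true_and] at hy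
  by_contra h
  apply hy
  unfold H937.push
  refine sum_eq_zero fun x hx => ?_
  by_contra hx0
  exact h (mem_image.2 ⟨x, mem_filter.2 ⟨mem_univ x, hx0⟩, (mem_filter.1 hx).2⟩)

omit [Fintype Y] in
/-- If the push-forward vanishes, the image of the support is at most half as large. -/
theorem two_mul_card_image_of_push_zero [DecidableEq X] (f : X → Y) (μ : X → ZMod 2)
    (h : H937.push f μ = 0) :
    2 * ((univ.filter fun x => μ x ≠ 0).image f).card ≤ H937.sz μ := by
  classical
  unfold H937.sz
  rw [card_eq_sum_card_image f (univ.filter fun x => μ x ≠ 0), mul_comm, ← smul_eq_mul,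
    ← sum_const]
  refine sum_le_sum fun y hy => ?_
  obtain ⟨x, hx, rfl⟩ := mem_image.1 hy
  have h0 : ∑ x' with f x' = f x, μ x' = 0 := congrFun h (f x)
  have hx' : μ x ≠ 0 := (mem_filter.1 hx).2
  have hxm : x ∈ univ.filter fun x' => f x' = f x := by simp
  rw [← add_sum_erase _ _ hxm] at h0
  have h1 : ∑ x' ∈ (univ.filter fun x' => f x' = f x).erase x, μ x' ≠ 0 := by
    intro h2; rw [h2, add_zero] at h0; exact hx' h0
  obtain ⟨x', hx'm, hx'0⟩ := exists_ne_zero_of_sum_ne_zero h1
  rw [mem_erase, mem_filter] at hx'm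
  have : 1 < ((univ.filter fun x => μ x ≠ 0).filter fun x'' => f x'' = f x).card :=
    one_lt_card.2 ⟨x', by simp [hx'0, hx'm.2.2], x, by simp [hx'], hx'm.1⟩
  exact this

omit [Fintype Y] in
/-- Uniqueness along one lossless family. -/
theorem eq_zero_of_lossless [DecidableEq X] {Sd : Type} (S : Finset Sd) (hS : S.Nonempty)
    (T : Sd → X → Y) (W : ℕ) (e : ℝ) (he : e < 1 / 2) (hL : H937.Lossless S T W e)
    (μ : X → ZMod 2) (hμ : H937.sz μ ≤ W) (h : ∀ c ∈ S, H937.push (T c) μ = 0) : μ = 0 := by
  classical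
  have h1 := hL (univ.filter fun x => μ x ≠ 0) hμ
  have h2 : ∑ c ∈ S, (((univ.filter fun x => μ x ≠ 0).image (T c)).card : ℝ)
      ≤ ∑ c ∈ S, (H937.sz μ : ℝ) / 2 := by
    refine sum_le_sum fun c hc => ?_
    have := two_mul_card_image_of_push_zero (T c) μ (h c hc)
    rw [le_div_iff₀ two_pos]
    have h3 : ((2 * ((univ.filter fun x => μ x ≠ 0).image (T c)).card : ℕ) : ℝ) ≤
        (H937.sz μ : ℝ) := by exact_mod_cast this
    push_cast at h3
    linarith
  rw [sum_const, nsmul_eq_mul] at h2
  have h3 := h1.trans h2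
  have hSp : (0 : ℝ) < S.card := by exact_mod_cast hS.card_pos
  have h4 : ((univ.filter fun x => μ x ≠ 0).card : ℝ) = (H937.sz μ : ℝ) := rfl
  rw [h4] at h3
  have h5 : (H937.sz μ : ℝ) * (S.card * (1 / 2 - e)) ≤ 0 := by nlinarith
  have h6 : 0 < (S.card : ℝ) * (1 / 2 - e) := mul_pos hSp (by linarith)
  have h7 : (H937.sz μ : ℝ) ≤ 0 := by
    by_contra hcon
    push Not at hcon
    exact absurd h5 (not_le.2 (mul_pos hcon h6))
  have h8 : H937.sz μ = 0 := by exact_mod_cast le_antisymm h7 (by positivity)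
  funext x
  by_contra hx
  have : x ∈ univ.filter fun x => μ x ≠ 0 := by simpa using hx
  have h9 : (univ.filter fun x => μ x ≠ 0) = ∅ := card_eq_zero.1 h8
  rw [h9] at this
  exact absurd this (notMem_empty x)

/-- Push-forward as a homomorphism. -/
def pushHom (f : X → Y) : (X → ZMod 2) →+ (Y → ZMod 2) where
  toFun μ := H937.push f μ
  map_zero' := push_zero f
  map_add' := push_add f

omit [Fintype Y] in
@[simp] theorem pushHom_apply (f : X → Y) (μ : X → ZMod 2) : pushHom f μ = H937.push f μ := rfl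

end Meas

/-! ## The views of a node system -/

section View

variable {X : Type} [AddCommGroup X] [Module (ZMod 2) X] {M : ℕ} {Sd : Type}
  (N : H937.NodeSys X M Sd)

/-- one step of the composition -/
def vstep (R : Finset (Fin M)) (y : Fin M → Sd) (f : X →ₗ[ZMod 2] X) (v : Fin M) :
    X →ₗ[ZMod 2] X :=
  if v ∈ R then f else (N.op v (y v)).comp f

theorem view_eq (R : Finset (Fin M)) (y : Fin M → Sd) :
    N.view R y = (List.finRange M).foldl (vstep N R y) LinearMap.id := rfl

theorem foldl_vstep_comm {R : Finset (Fin M)} (hR : N.Up R) {v : Fin M} (hv : v ∈ R)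
    (y : Fin M → Sd) (l : List (Fin M)) (hl : ∀ w ∈ l, v < w) (a : Sd) (f : X →ₗ[ZMod 2] X) :
    l.foldl (vstep N R y) ((N.op v a).comp f) = (N.op v a).comp (l.foldl (vstep N R y) f) := by
  induction l generalizing f with
  | nil => rfl
  | cons w l ih =>
    have hvw : v < w := hl w (by simp)
    rw [List.foldl_cons, List.foldl_cons, ← ih (fun u hu => hl u (by simp [hu]))]
    congr 1
    unfold vstep
    by_cases hw : w ∈ R
    · rw [if_pos hw, if_pos hw]
    · rw [if_neg hw, if_neg hw]
      ext x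
      simp only [LinearMap.comp_apply]
      refine N.comm w v hvw.ne' ?_ ?_ _ _ _
      · exact fun h => hw (hR v hv h)
      · exact fun h => absurd (N.anc_gt w v h) (not_lt.2 hvw.le)

theorem foldl_vstep_erase {R : Finset (Fin M)} (hR : N.Up R) {v : Fin M} (hv : v ∈ R)
    (y : Fin M → Sd) (l : List (Fin M)) (hl : l.Pairwise (· < ·)) (hvl : v ∈ l)
    (f : X →ₗ[ZMod 2] X) :
    l.foldl (vstep N (R.erase v) y) f = (N.op v (y v)).comp (l.foldl (vstep N R y) f) := by
  induction l generalizing f with
  | nil => simp at hvl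
  | cons w l ih =>
    rw [List.pairwise_cons] at hl
    rw [List.foldl_cons, List.foldl_cons]
    by_cases hwv : w = v
    · subst hwv
      have h1 : vstep N (R.erase w) y f w = (N.op w (y w)).comp f := by
        unfold vstep; rw [if_neg (notMem_erase w R)]
      have h2 : vstep N R y f w = f := by unfold vstep; rw [if_pos hv]
      have h3 : ∀ (l' : List (Fin M)), (∀ u ∈ l', w < u) → ∀ g,
          l'.foldl (vstep N (R.erase w) y) g = l'.foldl (vstep N R y) g := by
        intro l'
        induction l' with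
        | nil => intro _ g; rfl
        | cons u l' ih' =>
          intro hl' g
          rw [List.foldl_cons, List.foldl_cons, ih' (fun t ht => hl' t (by simp [ht]))]
          congr 1
          have : u ≠ w := (hl' u (by simp)).ne'
          unfold vstep
          simp only [mem_erase, this, ne_eq, not_false_eq_true, true_and]
      rw [h1, h2, h3 l hl.1, foldl_vstep_comm N hR hv y l hl.1]
    · have hvl' : v ∈ l := by
        rcases List.mem_cons.1 hvl with h | h
        · exact absurd h.symm hwv
        · exact h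
      have h1 : vstep N (R.erase v) y f w = vstep N R y f w := by
        unfold vstep
        simp only [mem_erase, hwv, ne_eq, not_false_eq_true, true_and]
      rw [h1, ih hl.2 hvl']

theorem view_erase {R : Finset (Fin M)} (hR : N.Up R) {v : Fin M} (hv : v ∈ R)
    (y : Fin M → Sd) (x : X) : N.view (R.erase v) y x = N.op v (y v) (N.view R y x) := by
  rw [view_eq, view_eq, foldl_vstep_erase N hR hv y _ (List.pairwise_lt_finRange M)
    (List.mem_finRange v)]
  rfl

theorem view_univ (y : Fin M → Sd) (x : X) : N.view univ y x = x := by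
  rw [view_eq]
  have : ∀ (l : List (Fin M)) (f : X →ₗ[ZMod 2] X), l.foldl (vstep N univ y) f = f := by
    intro l
    induction l with
    | nil => intro f; rfl
    | cons w l ih => intro f; rw [List.foldl_cons, ih]; unfold vstep; rw [if_pos (mem_univ w)]
  rw [this]; rfl

theorem view_congr {R : Finset (Fin M)} {y y' : Fin M → Sd} (h : ∀ w, w ∉ R → y w = y' w) :
    N.view R y = N.view R y' := by
  rw [view_eq, view_eq]
  congr 1
  funext f v
  unfold vstep
  by_cases hv : v ∈ R
  · rw [if_pos hv, if_pos hv]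
  · rw [if_neg hv, if_neg hv, h v hv]

theorem card_minl_erase {R : Finset (Fin M)} {v : Fin M} (hv : v ∈ N.minl R) :
    (N.minl (R.erase v)).card ≤ (N.minl R).card := by
  classical
  set S := (N.minl (R.erase v)).filter (fun u => u ∈ N.anc v) with hS
  have hsub : N.minl (R.erase v) ⊆ (N.minl R).erase v ∪ S := by
    intro u hu
    rw [mem_union]
    have hu' := hu
    unfold H937.NodeSys.minl at hu'
    rw [mem_filter, mem_erase] at hu'
    by_cases h : u ∈ N.anc v
    · right; rw [hS, mem_filter]; exact ⟨hu, h⟩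
    · left
      rw [mem_erase]
      refine ⟨hu'.1.1, ?_⟩
      unfold H937.NodeSys.minl
      rw [mem_filter]
      refine ⟨hu'.1.2, fun w hw => ?_⟩
      by_cases hwv : w = v
      · subst hwv; exact h
      · exact hu'.2 w (mem_erase.2 ⟨hwv, hw⟩)
  have hS1 : S.card ≤ 1 := by
    rw [card_le_one]
    intro a ha b hb
    rw [hS, mem_filter] at ha hb
    unfold H937.NodeSys.minl at ha hb
    rw [mem_filter] at ha hb
    rcases N.anc_chain v a b ha.2 hb.2 with h | h | h
    · exact h
    · exact absurd h (ha.1.2 b hb.1.1)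
    · exact absurd h (hb.1.2 a ha.1.1)
  have h1 := card_le_card hsub
  have h2 := card_union_le ((N.minl R).erase v) S
  rw [card_erase_of_mem hv] at h2
  have h3 : 0 < (N.minl R).card := card_pos.2 ⟨v, hv⟩
  omega

end View

/-! ## The theorem -/

/-- The gluing property in three coordinates, in the form which is needed at the nodes of a good
node system. -/
def GlueField : Prop := ∀ (X : Type) [AddCommGroup X] [Module (ZMod 2) X] [Fintype X]
  [DecidableEq X] (M n m' dT Dn : ℕ) (Sd : Type) [Fintype Sd] [DecidableEq Sd]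
  (N : H937.NodeSys X M Sd), N.Good n m' dT → ∀ (S : Fin M → Finset Sd), (∀ v, (S v).card = Dn) →
  300 * (n + 1) * (M + 1) * ((2 * m' + 1) * (n * m')) < Dn → n ≤ Dn → 1 ≤ m' →
  ∀ a b c : Fin M, Incomp (fun v w => w ∈ N.anc v) a b → Incomp (fun v w => w ∈ N.anc v) a c →
    Incomp (fun v w => w ∈ N.anc v) b c → ∀ W : ℕ, 2 * W + 1 ≤ 2 ^ m' →
  ∀ P Q R : Sd → X → ZMod 2,
    (∀ z ∈ S c, H937.sz (P z) ≤ W) → (∀ y ∈ S b, H937.sz (Q y) ≤ W) →
    (∀ x ∈ S a, H937.sz (R x) ≤ W) →
    (∀ y ∈ S b, ∀ z ∈ S c, H937.push (fun p => N.op b y p) (P z) =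
      H937.push (fun p => N.op c z p) (Q y)) →
    (∀ x ∈ S a, ∀ z ∈ S c, H937.push (fun p => N.op a x p) (P z) =
      H937.push (fun p => N.op c z p) (R x)) →
    (∀ x ∈ S a, ∀ y ∈ S b, H937.push (fun p => N.op a x p) (Q y) =
      H937.push (fun p => N.op b y p) (R x)) →
    ∃ U : X → ZMod 2, (1 - 2 * (((2 * m' + 1) * (n * m') : ℝ) / Dn)) * H937.sz U ≤ W ∧
      (∀ z ∈ S c, H937.push (fun p => N.op c z p) U = P z) ∧
      (∀ y ∈ S b, H937.push (fun p => N.op b y p) U = Q y) ∧
      (∀ x ∈ S a, H937.push (fun p => N.op a x p) U = R x)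

theorem lossless_of_good {X : Type} [AddCommGroup X] [Module (ZMod 2) X] [Fintype X]
    [DecidableEq X] {M n m' dT Dn : ℕ} {Sd : Type} {N : H937.NodeSys X M Sd}
    (hN : N.Good n m' dT) (hDn0 : 0 < Dn) {S : Fin M → Finset Sd} (hS : ∀ v, (S v).card = Dn)
    (v : Fin M) : H937.Lossless (S v) (fun c x => N.op v c x) (2 ^ m')
      (((2 * m' + 1) * (n * m') : ℝ) / Dn) := by
  intro U hU
  have := hN.lossless v (S v) U hU
  rw [hS] at this ⊢
  have hDr : (0 : ℝ) < Dn := by exact_mod_cast hDn0
  have h' : (1 - (((2 * m' + 1) * (n * m') : ℝ) / Dn)) * (Dn : ℝ)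
      = Dn - (2 * m' + 1) * (n * m') := by
    field_simp
  rw [h']
  exact this

theorem glueField_of_specGLUE (hG : H937.SpecGLUE) : GlueField := by
  intro X _ _ _ _ M n m' dT Dn Sd _ _ N hN S hS hDn hnD hm' a b c hab hac hbc W hW P Q R
    hP hQ hR hPQ hPR hQR
  classical
  have hDn0 : 0 < Dn := by omega
  have hDr : (0 : ℝ) < Dn := by exact_mod_cast hDn0
  have hSne : ∀ v, (S v).Nonempty := fun v => by
    rw [← card_pos, hS]; exact hDn0
  set θ : ℝ := (2 * m' + 1) * (n * m') with hθ
  have hθ0 : 0 ≤ θ := by positivity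
  have hDnR : 300 * ((n : ℝ) + 1) * (M + 1) * θ < Dn := by
    have : ((300 * (n + 1) * (M + 1) * ((2 * m' + 1) * (n * m')) : ℕ) : ℝ) < (Dn : ℝ) := by
      exact_mod_cast hDn
    push_cast at this
    rw [hθ]
    exact this
  set e : ℝ := θ / Dn with he
  have he0 : 0 ≤ e := by positivity
  have heD : e * Dn = θ := by rw [he]; field_simp
  have hmain : 300 * ((n : ℝ) + 1) * (M + 1) * e < 1 := by
    rw [he, ← mul_div_assoc, div_lt_one hDr]; exact hDnR
  have hn0 : (0 : ℝ) ≤ n := Nat.cast_nonneg n
  have hM0 : (0 : ℝ) ≤ M := Nat.cast_nonneg M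
  have h1 : (n : ℝ) * e ≥ 0 := by positivity
  have h2 : (M : ℝ) * e ≥ 0 := by positivity
  have h3 : (n : ℝ) * M * e ≥ 0 := by positivity
  have hglue1 : (250 * ((n : ℝ) + 1) + 2) * e < 1 := by nlinarith
  have hθn : (n : ℝ) ≤ 2 * θ := by
    have : (1 : ℝ) ≤ m' := by exact_mod_cast hm'
    rw [hθ]
    nlinarith [mul_nonneg hn0 (sub_nonneg.2 this), mul_nonneg hn0 hn0]
  exact hG X Sd (S a) (S b) (S c)
    (fun s x => N.op a s x) (fun s x => N.op b s x) (fun s x => N.op c s x)
    n W (2 ^ m') e (hSne a) (hSne b) (hSne c)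
    (fun s t x => N.comm a b hab.1 hab.2.2 hab.2.1 s t x)
    (fun s t x => N.comm a c hac.1 hac.2.2 hac.2.1 s t x)
    (fun s t x => N.comm b c hbc.1 hbc.2.2 hbc.2.1 s t x)
    he0 hglue1 (lossless_of_good hN hDn0 hS a) (lossless_of_good hN hDn0 hS b)
    (lossless_of_good hN hDn0 hS c)
    (by
      intro Z hZ hnZ u u' huu
      by_contra hne
      have := hN.kill c (u - u') (sub_ne_zero.2 hne) Z (fun z hz => by
        rw [map_sub, sub_eq_zero]; exact huu z hz)
      omega)
    (by rw [hS]; exact hnD)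
    (by
      intro Z hZ p GB hGB hcard hq
      refine hN.ext c b hbc.1.symm hbc.2.1 hbc.2.2 Z p GB ?_ hq
      rw [hS] at hcard
      have h5 : 2 * θ < (GB.card : ℝ) := by
        rw [← heD]; linarith
      have : (n : ℝ) < GB.card := lt_of_le_of_lt hθn h5
      exact_mod_cast this.le)
    hW P Q R hP hQ hR hPQ hPR hQR

theorem node_of_glueField (hG : GlueField) : H937.SpecNODE := by
  intro X _ _ _ _ M n m' dT Dn W Sd _ _ N hN S hS hDn hnD hm' hW μ hμs hμi hμc
  classical
  -- the parameters
  have hDn0 : 0 < Dn := by omega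
  have hDr : (0 : ℝ) < Dn := by exact_mod_cast hDn0
  have hDnR : 300 * ((n : ℝ) + 1) * (M + 1) * ((2 * m' + 1) * (n * m')) < Dn := by
    have : ((300 * (n + 1) * (M + 1) * ((2 * m' + 1) * (n * m')) : ℕ) : ℝ) < (Dn : ℝ) := by
      exact_mod_cast hDn
    push_cast at this
    exact this
  set e : ℝ := ((2 * m' + 1) * (n * m') : ℝ) / Dn with he
  have he0 : 0 ≤ e := by positivity
  have hmain : 300 * ((n : ℝ) + 1) * (M + 1) * e < 1 := by
    rw [he, ← mul_div_assoc, div_lt_one hDr]; exact hDnR
  have hn0 : (0 : ℝ) ≤ n := Nat.cast_nonneg n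
  have hM0 : (0 : ℝ) ≤ M := Nat.cast_nonneg M
  have h1 : (n : ℝ) * e ≥ 0 := by positivity
  have h2 : (M : ℝ) * e ≥ 0 := by positivity
  have h3 : (n : ℝ) * M * e ≥ 0 := by positivity
  have hMe : 300 * (M * e) < 1 := by nlinarith
  have he1 : 300 * e < 1 := by nlinarith
  have hpos : 0 < 1 - 2 * e := by linarith
  set ρ : ℝ := (1 - 2 * e)⁻¹ with hρ
  have hρ1 : 1 ≤ ρ := by
    rw [hρ]; exact (one_le_inv₀ hpos).2 (by linarith)
  have hρM : ρ ^ M ≤ 2 := by
    have hb : 1 + (M : ℝ) * (-(2 * e)) ≤ (1 + -(2 * e)) ^ M :=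
      one_add_mul_le_pow (by linarith) M
    have hb' : (1 : ℝ) / 2 ≤ (1 - 2 * e) ^ M := by
      have : (1 + -(2 * e)) = 1 - 2 * e := by ring
      rw [this] at hb
      nlinarith
    rw [hρ, inv_pow]
    calc ((1 - 2 * e) ^ M)⁻¹ ≤ (1 / 2)⁻¹ := by
          apply inv_anti₀ (by norm_num) hb'
      _ = 2 := by norm_num
  have hSne : ∀ v, (S v).Nonempty := fun v => by
    rw [← card_pos, hS]; exact hDn0
  have hloss : ∀ v, H937.Lossless (S v) (fun c x => N.op v c x) (2 ^ m') e := fun v =>
    lossless_of_good hN hDn0 hS v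
  have hWR : 8 * (W : ℝ) ≤ 2 ^ m' := by exact_mod_cast hW
  have hW0R : (0 : ℝ) ≤ W := Nat.cast_nonneg W
  let D : NodeSys (Fin M) Sd (X → ZMod 2) :=
    { below := fun v w => w ∈ N.anc v
      rk := fun v => v.val
      rk_lt := fun v w h => N.anc_gt v w h
      S := S
      S_ne := hSne
      T := fun v x => pushHom (fun p => N.op v x p)
      comm := by
        intro v w hvw x y a
        simp only [pushHom_apply]
        rw [push_push, push_push]
        congr 1
        funext p
        exact N.comm v w hvw.1 hvw.2.2 hvw.2.1 x y p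
      sz := fun a => (H937.sz a : ℝ)
      sz_sub := fun a b => by exact_mod_cast sz_sub_le a b
      sz_T := fun v x a => by
        have h5 := sz_push_le (fun p => N.op v x p) a
        simp only [pushHom_apply]
        exact_mod_cast h5
      W0 := 2 ^ m'
      uniq := by
        intro v a ha h
        refine eq_zero_of_lossless (S v) (hSne v) (fun c x => N.op v c x) (2 ^ m') e
          (by linarith) (hloss v) a ?_ h
        exact_mod_cast ha
      ρ := ρ
      one_le_ρ := hρ1
      W1 := 2 * W
      W1_le := by linarith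
      glue := by
        intro a b c hab hac hbc B hB F G H hF hG' hH hFG hFH hGH
        have hB0 : 0 ≤ B := by
          obtain ⟨x, hx⟩ := hSne a
          exact le_trans (Nat.cast_nonneg _) (hF x hx)
        have hfl : ∀ {t : ℕ}, (t : ℝ) ≤ B → t ≤ ⌊B⌋₊ := fun h => Nat.le_floor h
        obtain ⟨U, hUs, hUc, hUb, hUa⟩ := hG X M n m' dT Dn Sd N hN S hS hDn hnD hm' a b c
          hab hac hbc ⌊B⌋₊
          (by
            have h5 : ((⌊B⌋₊ : ℕ) : ℝ) ≤ 2 * W := (Nat.floor_le hB0).trans hB
            have h6 : ⌊B⌋₊ ≤ 2 * W := by exact_mod_cast h5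
            have h7 : 1 ≤ 2 ^ m' := Nat.one_le_two_pow
            omega)
          H G F
          (fun z hz => hfl (hH z hz)) (fun z hz => hfl (hG' z hz)) (fun z hz => hfl (hF z hz))
          (fun y hy z hz => (hGH y hy z hz).symm)
          (fun x hx z hz => (hFH x hx z hz).symm)
          (fun x hx y hy => (hFG x hx y hy).symm)
        refine ⟨U, ?_, hUa, hUb, hUc⟩
        have h5 : (1 - 2 * e) * (H937.sz U : ℝ) ≤ B := hUs.trans (Nat.floor_le hB0)
        rw [hρ, inv_mul_eq_div, le_div_iff₀ hpos]
        linarith }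
  have hUp : ∀ R, Upper D.below R ↔ N.Up R := by
    intro R
    constructor
    · intro h v hv w hw
      exact h v w hw hv
    · intro h v w hw hv
      exact h v hv hw
  have hMin : ∀ R v, MinIn D.below R v ↔ v ∈ N.minl R := by
    intro R v
    unfold H937.NodeSys.minl MinIn
    rw [mem_filter]
  have hF : ViewFam D (fun R => (N.minl R).card ≤ 2) μ (W : ℝ) :=
    { view_erase := fun R v _ hc hv => (card_minl_erase N ((hMin R v).1 hv)).trans hc
      three := by
        intro R _ hc
        rw [not_le, two_lt_card] at hc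
        obtain ⟨a, ha, b, hb, c, hc', hab, hac, hbc⟩ := hc
        exact ⟨a, b, c, hab, hac, hbc, (hMin R a).2 ha, (hMin R b).2 hb, (hMin R c).2 hc'⟩
      indep := fun R hR hc y y' hy hy' h => hμi R y y' ((hUp R).1 hR) hc hy hy' h
      cons := fun R v hR hc hv y hy => hμc R y v ((hUp R).1 hR) hc hy ((hMin R v).1 hv)
      size := fun R hR hc y hy => by
        have := hμs R y ((hUp R).1 hR) hc hy
        change (H937.sz (μ R y) : ℝ) ≤ (W : ℝ)
        exact_mod_cast this }
  have hV : ViewOp D (fun R y => pushHom (fun p => N.view R y p)) :=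
    { top := by
        intro y a
        simp only [pushHom_apply]
        have : (fun p => N.view univ y p) = fun p => p := by
          funext p; exact view_univ N y p
        rw [this, push_id]
      step := by
        intro R v hR hv y a
        change H937.push _ a = H937.push _ (H937.push _ a)
        rw [push_push]
        congr 1
        funext p
        exact view_erase N ((hUp R).1 hR) (hv.1) y p
      indep := by
        intro R _ y y' h a
        simp only [pushHom_apply]
        rw [view_congr N h] }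
  obtain ⟨U, hUs, hU⟩ := node_exists hV hF hW0R (by
    rw [Fintype.card_fin]
    change ρ ^ M * (W : ℝ) ≤ 2 * W
    exact mul_le_mul_of_nonneg_right hρM hW0R)
  refine ⟨U, ?_, ?_⟩
  · have h5 : (H937.sz U : ℝ) ≤ ρ ^ M * W := by
      rw [Fintype.card_fin] at hUs; exact hUs
    have h6 : (H937.sz U : ℝ) ≤ 2 * W := h5.trans (mul_le_mul_of_nonneg_right hρM hW0R)
    exact_mod_cast h6
  · intro R y hR hc hy
    exact hU R ((hUp R).2 hR) hc y hy

theorem spec_node (hG : H937.SpecGLUE) : H937.SpecNODE :=
  node_of_glueField (glueField_of_specGLUE hG)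

end Vale.Agent.P318.H653
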