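import Vale.Agent.P318.H653.TStep
import Vale.Agent.P318.H460.Code4

/-!
# P318, `SpecCODE4`, unconditionally (route B)
-/

namespace Vale.Agent.P318.H653

/-- **SpecCODE4**: the code of helper6's construction, route B. -/
theorem spec_code4 : H308.SpecCODE4 :=
  H460.spec_code4_of (A2 := 7) (B2 := 12) (hc := 4) (by norm_num)
    (fun a w J D h1 h2 => tstep h1 h2 (by
      have h3 : 2 ^ 4 ≤ 2 ^ (2 * J + 4) := Nat.pow_le_pow_right (by norm_num) (by omega)
      omega))

end Vale.Agent.P318.H653
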