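import Vale.Agent.P318.H653.NodeInst
import Vale.Agent.P318.H891.GlueX

/-!
# P318, module NODE: `SpecNODE` without hypothesis (with the gluing lemma of helper891)
-/

namespace Vale.Agent.P318.H653

open Finset
open Vale.Agent.P318
open scoped BigOperators

theorem push_bridge {X Y : Type} [Fintype X] [DecidableEq Y] (f : X → Y) (μ : X → ZMod 2) :
    H891.push f μ = H937.push f μ := by
  funext y
  unfold H891.push H937.push
  refine sum_congr ?_ fun _ _ => rfl
  ext x
  simp

theorem su_bridge {X : Type} [Fintype X] (μ : X → ZMod 2) :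
    (H891.su μ).card = H937.sz μ := by
  unfold H891.su H937.sz
  congr 1

theorem cond_of_lossless {X : Type} [DecidableEq X] {Sd : Type} (S : Finset Sd)
    (hS : S.Nonempty) (T : Sd → X → X) (W : ℕ) (e : ℝ) (h : H937.Lossless S T W e) :
    H891.Cond (fun (s : {x // x ∈ S}) x => T s.1 x) e W := by
  classical
  intro U hU
  have h1 := h U hU
  have hp : (0 : ℝ) < S.card := by exact_mod_cast hS.card_pos
  rw [expect_eq_sum_div_card, card_univ, Fintype.card_coe, le_div_iff₀ hp]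
  have h2 : ∑ c ∈ S, ((U.image (T c)).card : ℝ) =
      ∑ s : {x // x ∈ S}, ((U.image (T s.1)).card : ℝ) := by
    rw [← sum_coe_sort S (fun c => ((U.image (T c)).card : ℝ))]
  rw [h2] at h1
  have h3 : ∀ s : {x // x ∈ S}, (U.image (T s.1)).card
      = (@Finset.image _ _ (fun a b => Classical.propDecidable (a = b)) (fun x => T s.1 x) U).card := by
    intro s
    congr 1
    ext y
    simp
  calc (1 - e) * (U.card : ℝ) * S.card = (1 - e) * S.card * U.card := by ring
    _ ≤ _ := h1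
    _ = _ := by
      refine sum_congr rfl fun s _ => ?_
      rw [h3 s]

/-- If `n = 0` there is only one element. -/
theorem glueField_zero {X : Type} [Fintype X] [DecidableEq X] [Subsingleton X] {Sd : Type}
    {SA SB SC : Finset Sd} {al be ga : Sd → X → X} (hB : SB.Nonempty) (hC : SC.Nonempty)
    {P Q R : Sd → X → ZMod 2}
    (hPQ : ∀ y ∈ SB, ∀ z ∈ SC, H937.push (be y) (P z) = H937.push (ga z) (Q y))
    (hPR : ∀ x ∈ SA, ∀ z ∈ SC, H937.push (al x) (P z) = H937.push (ga z) (R x)) :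
    ∃ z0 ∈ SC, (∀ z ∈ SC, H937.push (ga z) (P z0) = P z) ∧
      (∀ y ∈ SB, H937.push (be y) (P z0) = Q y) ∧ (∀ x ∈ SA, H937.push (al x) (P z0) = R x) := by
  have hid : ∀ (f : X → X) (μ : X → ZMod 2), H937.push f μ = μ := by
    intro f μ
    have : f = fun x => x := by funext x; exact Subsingleton.elim _ _
    rw [this, push_id]
  simp only [hid] at hPQ hPR ⊢
  obtain ⟨z0, hz0⟩ := hC
  obtain ⟨y0, hy0⟩ := hB
  refine ⟨z0, hz0, fun z hz => ?_, fun y hy => hPQ y hy z0 hz0, fun x hx => hPR x hx z0 hz0⟩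
  rw [hPQ y0 hy0 z0 hz0, hPQ y0 hy0 z hz]

/-- `glueX` of helper891 in terms of the definitions of `H937`. -/
theorem glue_fin {X Sd : Type} [Fintype X] [DecidableEq X] (x0 : X) (SA SB SC : Finset Sd)
    (hA : SA.Nonempty) (hB : SB.Nonempty) (hC : SC.Nonempty) (al be ga : Sd → X → X)
    (hab : ∀ s t x, al s (be t x) = be t (al s x)) (hac : ∀ s t x, al s (ga t x) = ga t (al s x))
    (hbc : ∀ s t x, be s (ga t x) = ga t (be s x)) {W0 n W : ℕ} {e : ℝ}
    (hLa : H937.Lossless SA al W0 e) (hLb : H937.Lossless SB be W0 e)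
    (hLc : H937.Lossless SC ga W0 e) (he : 0 < e) (he1 : e ≤ 1 / 100) (hn : 1 ≤ n)
    (hnC : 10 * n ≤ 9 * SC.card) (hen : 280 * e * (n + 1) ≤ 1 / 2)
    (hI : ∀ Z ⊆ SC, Z.card = n → ∀ u u', (∀ z ∈ Z, ga z u = ga z u') → u = u')
    (hE : ∀ Z ⊆ SC, ∀ p : Sd → X, ∀ GB ⊆ SB, SB.card ≤ 2 * GB.card →
      (∀ y ∈ GB, ∃ q, ∀ z ∈ Z, ga z q = be y (p z)) → ∃ u, ∀ z ∈ Z, ga z u = p z)
    (hW : 2 * W + 1 ≤ W0) {P Q R : Sd → X → ZMod 2}
    (hP : ∀ z ∈ SC, H937.sz (P z) ≤ W) (hQ : ∀ y ∈ SB, H937.sz (Q y) ≤ W)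
    (hR : ∀ x ∈ SA, H937.sz (R x) ≤ W)
    (hPQ : ∀ y ∈ SB, ∀ z ∈ SC, H937.push (be y) (P z) = H937.push (ga z) (Q y))
    (hPR : ∀ x ∈ SA, ∀ z ∈ SC, H937.push (al x) (P z) = H937.push (ga z) (R x))
    (hQR : ∀ x ∈ SA, ∀ y ∈ SB, H937.push (al x) (Q y) = H937.push (be y) (R x)) :
    ∃ U : X → ZMod 2, (1 - 2 * e) * H937.sz U ≤ W ∧
      (∀ z ∈ SC, H937.push (ga z) U = P z) ∧ (∀ y ∈ SB, H937.push (be y) U = Q y) ∧
      (∀ x ∈ SA, H937.push (al x) U = R x) := by
  classical
  have := hA.to_subtype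
  have := hB.to_subtype
  have := hC.to_subtype
  have hInj : ∀ Z : Finset {x // x ∈ SC}, Z.card = n → ∀ u u',
      (∀ z ∈ Z, ga z.1 u = ga z.1 u') → u = u' := by
    intro Z hZ u u' huu
    refine hI (Z.map ⟨Subtype.val, Subtype.val_injective⟩) ?_ (by rw [card_map]; exact hZ) u u' ?_
    · intro z hz
      rw [mem_map] at hz
      obtain ⟨z', _, rfl⟩ := hz
      exact z'.2
    · intro z hz
      rw [mem_map] at hz
      obtain ⟨z', hz', rfl⟩ := hz
      exact huu z' hz'
  have hExt : ∀ (Z : Finset {x // x ∈ SC}) (p : {x // x ∈ SC} → X), Z.card ≤ n + 1 →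
      1 / 2 ≤ 𝔼 y : {x // x ∈ SB}, H891.ind (∃ q, ∀ z ∈ Z, ga z.1 q = be y.1 (p z)) →
      ∃ u, ∀ z ∈ Z, ga z.1 u = p z := by
    intro Z p _ hhalf
    set GB' : Finset {x // x ∈ SB} := univ.filter
      (fun y => ∃ q, ∀ z ∈ Z, ga z.1 q = be y.1 (p z)) with hGB'
    have hDr : (0 : ℝ) < SB.card := by exact_mod_cast hB.card_pos
    have hcard : SB.card ≤ 2 * GB'.card := by
      have h5 : (1 : ℝ) / 2 ≤ (GB'.card : ℝ) / SB.card := by
        refine hhalf.trans (le_of_eq ?_)
        rw [expect_eq_sum_div_card, card_univ, Fintype.card_coe]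
        congr 1
        rw [hGB', card_filter]
        push_cast
        refine sum_congr rfl fun y _ => ?_
        unfold H891.ind
        congr 1
      rw [div_le_div_iff₀ two_pos hDr] at h5
      have h6 : (SB.card : ℝ) ≤ 2 * GB'.card := by linarith
      exact_mod_cast h6
    let p' : Sd → X := fun s => if h : s ∈ SC then p ⟨s, h⟩ else x0
    have hp' : ∀ z : {x // x ∈ SC}, p' z.1 = p z := fun z => by
      simp only [p']
      rw [dif_pos z.2]
    obtain ⟨u, hu⟩ := hE (Z.map ⟨Subtype.val, Subtype.val_injective⟩)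
      (by
        intro z hz
        rw [mem_map] at hz
        obtain ⟨z', _, rfl⟩ := hz
        exact z'.2) p'
      (GB'.map ⟨Subtype.val, Subtype.val_injective⟩)
      (by
        intro z hz
        rw [mem_map] at hz
        obtain ⟨z', _, rfl⟩ := hz
        exact z'.2) (by rw [card_map]; exact hcard)
      (by
        intro y hy
        rw [mem_map] at hy
        obtain ⟨y', hy', rfl⟩ := hy
        obtain ⟨q, hq⟩ := (mem_filter.1 hy').2
        refine ⟨q, fun z hz => ?_⟩
        rw [mem_map] at hz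
        obtain ⟨z', hz', rfl⟩ := hz
        have h5 := hq z' hz'
        have h6 := hp' z'
        simp only [Function.Embedding.coeFn_mk]
        rw [h6]
        exact h5)
    refine ⟨u, fun z hz => ?_⟩
    have h5 := hu z.1 (mem_map.2 ⟨z, hz, rfl⟩)
    rw [hp' z] at h5
    exact h5
  obtain ⟨U, g1, g2, g3, g4, g5⟩ := H891.glueX (S1 := {x // x ∈ SA}) (S2 := {x // x ∈ SB})
    (S3 := {x // x ∈ SC}) (al := fun s x => al s.1 x) (be := fun s x => be s.1 x)
    (ga := fun s x => ga s.1 x) (δ := e) (W := W) (W0 := W0) (n := n)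
    (fun s t x => (hab s.1 t.1 x).symm) (fun s t x => (hac s.1 t.1 x).symm)
    (fun s t x => (hbc s.1 t.1 x).symm)
    (cond_of_lossless SA hA _ _ _ hLa) (cond_of_lossless SB hB _ _ _ hLb)
    (cond_of_lossless SC hC _ _ _ hLc) he he1 hn (by rw [Fintype.card_coe]; exact hnC) hen
    hInj hExt hW (P := fun z => P z.1) (Q := fun y => Q y.1) (R := fun x => R x.1)
    (fun z => by rw [su_bridge]; exact hP z.1 z.2) (fun y => by rw [su_bridge]; exact hQ y.1 y.2)
    (fun x => by rw [su_bridge]; exact hR x.1 x.2)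
    (fun y z => by rw [push_bridge, push_bridge]; exact hPQ y.1 y.2 z.1 z.2)
    (fun x z => by rw [push_bridge, push_bridge]; exact hPR x.1 x.2 z.1 z.2)
    (fun x y => by rw [push_bridge, push_bridge]; exact hQR x.1 x.2 y.1 y.2)
  refine ⟨U, ?_, ?_, ?_, ?_⟩
  · rw [su_bridge] at g4
    exact g4.trans g5
  · intro z hz
    have := g1 ⟨z, hz⟩
    rw [push_bridge] at this
    exact this
  · intro y hy
    have := g2 ⟨y, hy⟩
    rw [push_bridge] at this
    exact this
  · intro x hx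
    have := g3 ⟨x, hx⟩
    rw [push_bridge] at this
    exact this

theorem glueField : GlueField := by
  intro X _ _ _ _ M n m' dT Dn Sd _ _ N hN S hS hDn hnD hm' a b c hab hac hbc W hW P Q R
    hP hQ hR hPQ hPR hQR
  have hDn0 : 0 < Dn := by omega
  have hDr : (0 : ℝ) < Dn := by exact_mod_cast hDn0
  have hSne : ∀ v, (S v).Nonempty := fun v => by
    rw [← card_pos, hS]; exact hDn0
  by_cases hn : n = 0
  · subst hn
    have hsub : Subsingleton X := by
      refine ⟨fun x y => ?_⟩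
      by_contra hne
      have := hN.kill a (x - y) (sub_ne_zero.2 hne) ∅ (fun z hz => absurd hz (notMem_empty z))
      simp at this
    obtain ⟨z0, hz0, h1, h2, h3⟩ := glueField_zero (SA := S a) (SB := S b) (SC := S c)
      (al := fun s x => N.op a s x) (be := fun s x => N.op b s x) (ga := fun s x => N.op c s x)
      (hSne b) (hSne c) hPQ hPR
    refine ⟨P z0, ?_, h1, h2, h3⟩
    have := hP z0 hz0
    simp only [Nat.cast_zero, zero_mul, mul_zero, zero_div, sub_zero, one_mul]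
    exact_mod_cast this
  have hn1 : 1 ≤ n := Nat.one_le_iff_ne_zero.2 hn
  have hn1R : (1 : ℝ) ≤ n := by exact_mod_cast hn1
  have hm1R : (1 : ℝ) ≤ m' := by exact_mod_cast hm'
  have hM3 : 3 ≤ M := by
    have h := card_le_univ ({a, b, c} : Finset (Fin M))
    rw [Fintype.card_fin, card_eq_three.2 ⟨a, b, c, hab.1, hac.1, hbc.1, rfl⟩] at h
    exact h
  have hM3R : (3 : ℝ) ≤ M := by exact_mod_cast hM3
  set θ : ℝ := (2 * m' + 1) * (n * m') with hθ
  have hθ1 : 3 * (n : ℝ) ≤ θ := by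
    rw [hθ]
    have : (n : ℝ) ≤ n * m' := le_mul_of_one_le_right (by linarith) hm1R
    nlinarith
  have hDnR : 300 * ((n : ℝ) + 1) * (M + 1) * θ < Dn := by
    have : ((300 * (n + 1) * (M + 1) * ((2 * m' + 1) * (n * m')) : ℕ) : ℝ) < (Dn : ℝ) := by
      exact_mod_cast hDn
    push_cast at this
    rw [hθ]
    exact this
  have hθ0 : 0 < θ := by linarith
  have h4 : 1200 * ((n : ℝ) + 1) * θ < Dn := by
    have h5 : (0 : ℝ) ≤ 300 * ((n : ℝ) + 1) * θ := by positivity
    nlinarith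
  set e : ℝ := θ / Dn with he
  have he0 : 0 < e := by rw [he]; exact div_pos hθ0 hDr
  have hmain : 1200 * ((n : ℝ) + 1) * e < 1 := by
    rw [he, ← mul_div_assoc, div_lt_one hDr]; exact h4
  have hDn10 : 10 * n ≤ Dn := by
    have : (10 : ℝ) * n ≤ Dn := by nlinarith
    exact_mod_cast this
  refine glue_fin (0 : X) (S a) (S b) (S c) (hSne a) (hSne b) (hSne c)
    (fun s x => N.op a s x) (fun s x => N.op b s x) (fun s x => N.op c s x)
    (fun s t x => N.comm a b hab.1 hab.2.2 hab.2.1 s t x)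
    (fun s t x => N.comm a c hac.1 hac.2.2 hac.2.1 s t x)
    (fun s t x => N.comm b c hbc.1 hbc.2.2 hbc.2.1 s t x) (n := n)
    (lossless_of_good hN hDn0 hS a) (lossless_of_good hN hDn0 hS b)
    (lossless_of_good hN hDn0 hS c) he0 (by nlinarith) hn1 (by rw [hS]; omega) (by nlinarith)
    ?_ ?_ hW hP hQ hR hPQ hPR hQR
  · intro Z _ hZ u u' huu
    by_contra hne
    have := hN.kill c (u - u') (sub_ne_zero.2 hne) Z
      (fun z hz => by rw [map_sub, sub_eq_zero]; exact huu z hz)
    omega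
  · intro Z _ p GB _ hcard hq
    refine hN.ext c b hbc.1.symm hbc.2.1 hbc.2.2 Z p GB ?_ hq
    rw [hS] at hcard
    omega

/-- **Theorem 6** without hypothesis. -/
theorem spec_node_full : H937.SpecNODE := node_of_glueField glueField

end Vale.Agent.P318.H653
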