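import Vale.Agent.P318.H653.TMat
import Vale.Agent.P318.H17.GlueT

/-!
# P318, tensor step: the gluing on matrices
-/

namespace Vale.Agent.P318.H653

open Finset
open Vale.Agent.P318.H937 (push sz Lossless)
open Vale.Agent.P318.H283

theorem push_eq_of_comp {Y V V' Z : Type} [AddCommGroup Y] [Module (ZMod 2) Y] [Fintype Y]
    [AddCommGroup V] [Module (ZMod 2) V] [Fintype V] [DecidableEq V]
    [AddCommGroup V'] [Module (ZMod 2) V'] [Fintype V'] [DecidableEq V']
    [AddCommGroup Z] [Module (ZMod 2) Z] [DecidableEq Z] {f : V →ₗ[ZMod 2] Z}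
    {f' : V' →ₗ[ZMod 2] Z} {θ : Y →ₗ[ZMod 2] V} {θ' : Y →ₗ[ZMod 2] V'}
    (h : f.comp θ = f'.comp θ') (B : Y → ZMod 2) :
    push f (push θ B) = push f' (push θ' B) := by
  rw [← push_comp', ← push_comp', h]

theorem base_level {n a D q W0 d N h : ℕ} {e : ℝ} (h0 : 0 ≤ e) (h200 : 200 * e ≤ 1) (hh : 10 ≤ h) (hq : 0 < q)
    (hen : 200 * n * e ≤ 1)
    (han : a ≤ n) (hd : 2 * a * n + a ≤ d) (hcond : HasCond a W0 d q e)
    (hP : CodeP a D W0 h d N) (E : Fin q → (V2 n →ₗ[ZMod 2] V2 a)) (hE : VLoss W0 e E)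
    {κ' : Type} [Fintype κ']
    (R : Fin q → κ' → ((Fin n → V2 a) →ₗ[ZMod 2] V2 a)) :
    Tst D W0 h 3 (q * (N * (1 + (Fintype.card κ' + q * (q * q)))) + (q * (N * (1 + q)) +
      q * q * (N * (1 + (q + (q + q * q))))))
      (fun p : Fin q × κ' => (R p.1 p.2).comp (rowL (E p.1) (Fin n))) := by
  have he2 : 2 * e < 1 := by linarith
  -- dimensions
  have dZQ : Module.finrank (ZMod 2) (Fin n → V2 a) ≤ d := by
    rw [finrank_mat, Fintype.card_fin]
    nlinarith
  have dZP : Module.finrank (ZMod 2) (Fin a → V2 n) ≤ d := by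
    rw [finrank_mat, Fintype.card_fin]
    nlinarith
  have dZPP : Module.finrank (ZMod 2) ((Fin a → V2 n) × (Fin a → V2 n)) ≤ d := by
    rw [Module.finrank_prod, finrank_mat, Fintype.card_fin]
    nlinarith
  have dZT : Module.finrank (ZMod 2) ((Fin a → V2 a) × (Fin a → V2 a)) ≤ d := by
    rw [Module.finrank_prod, finrank_mat, Fintype.card_fin]
    nlinarith [Nat.mul_le_mul_left a han]
  obtain ⟨F1, hF1⟩ := hcond (Fin a → V2 n) dZP
  obtain ⟨F2, hF2⟩ := hcond ((Fin a → V2 a) × (Fin a → V2 a)) dZT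
  have s1 : Sepa W0 F1 := Sepa.of_vloss hF1 hq he2
  have s2 : Sepa W0 F2 := Sepa.of_vloss hF2 hq he2
  -- the local codes
  have hQ := fun b : Fin q => hP (Fin n → V2 a) dZQ (κ' ⊕ Fin q × (Fin q × Fin q))
    (Sum.elim (R b) (fun t => (F2 t.2.2).comp
      ((colL (E t.1) (Fin a)).prod (colL (E t.2.1) (Fin a)))))
  choose ιQ iQ TQ cQ gQ using hQ
  have hP' := hP (Fin a → V2 n) dZP (Fin q) F1
  obtain ⟨ιP, iP, TP, cP, gP⟩ := hP'
  have hPP := hP ((Fin a → V2 n) × (Fin a → V2 n)) dZPP (Fin q ⊕ (Fin q ⊕ Fin q × Fin q))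
    (Sum.elim (fun v => (F1 v).comp (LinearMap.fst _ _ _))
      (Sum.elim (fun v => (F1 v).comp (LinearMap.snd _ _ _))
        (fun t => (F2 t.2).comp (row2 (E t.1) (Fin a)))))
  obtain ⟨ιPP, iPP, TPP, cPP, gPP⟩ := hPP
  refine ⟨(Σ b, ιQ b) ⊕ ((Fin q × ιP) ⊕ ((Fin q × Fin q) × ιPP)), inferInstance,
    Sum.elim (fun t => (TQ t.1 t.2).comp (rowL (E t.1) (Fin n)))
      (Sum.elim (fun t => (TP t.2).comp (colL (E t.1) (Fin n)))
        (fun t => (TPP t.2).comp ((colL (E t.1.1) (Fin n)).prod (colL (E t.1.2) (Fin n))))),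
    ?_, ?_⟩
  · rw [Fintype.card_sum, Fintype.card_sum, Fintype.card_sigma, Fintype.card_prod,
      Fintype.card_prod, Fintype.card_prod, Fintype.card_fin]
    simp only [Fintype.card_sum, Fintype.card_prod, Fintype.card_fin] at cQ cP cPP
    refine Nat.add_le_add ?_ (Nat.add_le_add (Nat.mul_le_mul_left q cP)
      (Nat.mul_le_mul_left (q * q) cPP))
    calc ∑ b, Fintype.card (ιQ b) ≤ ∑ _b : Fin q, N * (1 + (Fintype.card κ' + q * (q * q))) :=
          sum_le_sum fun b _ => cQ b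
      _ = q * (N * (1 + (Fintype.card κ' + q * (q * q)))) := by
          rw [sum_const, card_univ, Fintype.card_fin, smul_eq_mul]
  intro W hW B hB
  have hW10 : 10 * W ≤ W0 := (Nat.mul_le_mul_right W hh).trans hW
  have hMQ := fun b => gQ b W hW (push (rowL (E b) (Fin n)) B) (fun i => by
    rw [← push_comp']; exact hB (Sum.inl ⟨b, i⟩))
  choose MQ zQ tQ rQ using hMQ
  have hMP := fun c => gP W hW (push (colL (E c) (Fin n)) B) (fun i => by
    rw [← push_comp']; exact hB (Sum.inr (Sum.inl ⟨c, i⟩)))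
  choose MP zP tP rP using hMP
  have hMPP := fun c : Fin q × Fin q => gPP W hW
    (push ((colL (E c.1) (Fin n)).prod (colL (E c.2) (Fin n))) B) (fun i => by
    rw [← push_comp']; exact hB (Sum.inr (Sum.inr ⟨c, i⟩)))
  choose MPP zPP tPP rPP using hMPP
  -- the relations
  have rel1 : ∀ c c', push Prod.fst (MPP (c, c')) = MP c := by
    intro c c'
    refine s1 _ _ ?_ (fun v => ?_)
    · have h1 := sz_push_le' (Prod.fst : (Fin a → V2 n) × (Fin a → V2 n) → _) (MPP (c, c'))
      have h2 := zPP (c, c')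
      have h3 := zP c
      omega
    · have h1 := rPP (c, c') (Sum.inl v)
      have h2 := rP c v
      simp only [Sum.elim_inl] at h1
      rw [push_comp'] at h1
      rw [h2]
      refine Eq.trans (Eq.trans ?_ h1) ?_
      · rfl
      · exact push_eq_of_comp (by ext x; rfl) B
  have rel2 : ∀ c c', push Prod.snd (MPP (c, c')) = MP c' := by
    intro c c'
    refine s1 _ _ ?_ (fun v => ?_)
    · have h1 := sz_push_le' (Prod.snd : (Fin a → V2 n) × (Fin a → V2 n) → _) (MPP (c, c'))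
      have h2 := zPP (c, c')
      have h3 := zP c'
      omega
    · have h1 := rPP (c, c') (Sum.inr (Sum.inl v))
      have h2 := rP c' v
      simp only [Sum.elim_inr, Sum.elim_inl] at h1
      rw [push_comp'] at h1
      rw [h2]
      refine Eq.trans (Eq.trans ?_ h1) ?_
      · rfl
      · exact push_eq_of_comp (by ext x; rfl) B
  have rel3 : ∀ b c c', push (fun p : (Fin a → V2 n) × (Fin a → V2 n) =>
      (rowL (E b) (Fin a) p.1, rowL (E b) (Fin a) p.2)) (MPP (c, c')) =
      push (fun x => (colL (E c) (Fin a) x, colL (E c') (Fin a) x)) (MQ b) := by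
    intro b c c'
    refine s2 _ _ ?_ (fun v => ?_)
    · refine (Nat.add_le_add (sz_push_le' _ _) (sz_push_le' _ _)).trans ?_
      have h3 := zPP (c, c')
      have h4 := zQ b
      omega
    · have h1 := rPP (c, c') (Sum.inr (Sum.inr (b, v)))
      have h2 := rQ b (Sum.inr (c, (c', v)))
      simp only [Sum.elim_inr] at h1 h2
      rw [push_comp'] at h1 h2
      refine Eq.trans (Eq.trans ?_ h1) (Eq.trans ?_ (Eq.trans h2.symm ?_))
      · rfl
      · refine push_eq_of_comp ?_ B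
        refine LinearMap.ext fun x => ?_
        exact congrArg (F2 v) (Prod.ext (row_col (E b) (E c) x) (row_col (E b) (E c') x))
      · rfl
  -- gluing
  obtain ⟨U, u1, u2, u3, u4⟩ := H17.glueT hq h0 h200 hen E E hE hE (2 * W) (by omega)
    MQ MP (fun c c' => MPP (c, c')) zQ zP (fun c c' => zPP (c, c')) rel1 rel2 rel3
  refine ⟨U, ?_, ?_, ?_⟩
  · have h1 : (0 : ℝ) ≤ sz U := Nat.cast_nonneg _
    have h2 : ((2 * W : ℕ) : ℝ) = 2 * W := by push_cast; ring
    rw [h2] at u1
    have h3 : (sz U : ℝ) ≤ 3 * W := by nlinarith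
    exact_mod_cast h3
  · rintro (⟨b, i⟩ | ⟨c, i⟩ | ⟨⟨c, c'⟩, i⟩)
    · simp only [Sum.elim_inl, push_comp']
      have h1 : push (rowL (E b) (Fin n)) U = MQ b := u3 b
      rw [h1]; exact tQ b i
    · simp only [Sum.elim_inr, Sum.elim_inl, push_comp']
      have h1 : push (colL (E c) (Fin n)) U = MP c := u2 c
      rw [h1]; exact tP c i
    · simp only [Sum.elim_inr, push_comp']
      have h1 : push ((colL (E c) (Fin n)).prod (colL (E c') (Fin n))) U = MPP (c, c') := u4 c c'
      rw [h1]; exact tPP (c, c') i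
  · rintro ⟨b, k⟩
    simp only [push_comp']
    have h1 : push (rowL (E b) (Fin n)) U = MQ b := u3 b
    rw [h1]; exact rQ b (Sum.inl k)

end Vale.Agent.P318.H653
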