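import Vale.Agent.P318.H653.TBase
import Vale.Agent.P318.H283.Retract

/-!
# P318, tensor step: the prefix chain
-/

namespace Vale.Agent.P318.H653

open Finset
open Vale.Agent.P318.H937 (push sz Lossless)
open Vale.Agent.P318.H283

section maps

variable {n a q : ℕ}

/-- rows with index `< j` kept, the others set to `0` -/
def cutL (n j : ℕ) (M : Type) [AddCommGroup M] [Module (ZMod 2) M] :
    (Fin n → M) →ₗ[ZMod 2] (Fin n → M) where
  toFun x i := if i.1 < j then x i else 0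
  map_add' x y := by
    funext i
    by_cases h : i.1 < j <;> simp [h]
  map_smul' c x := by
    funext i
    by_cases h : i.1 < j <;> simp [h]

theorem cutL_apply (n j : ℕ) (M : Type) [AddCommGroup M] [Module (ZMod 2) M] (x : Fin n → M)
    (i : Fin n) : cutL n j M x i = if i.1 < j then x i else 0 := rfl

theorem cutL_zero (n : ℕ) (M : Type) [AddCommGroup M] [Module (ZMod 2) M] (x : Fin n → M) :
    cutL n 0 M x = 0 := by
  funext i; rw [cutL_apply]; simp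

theorem cutL_full (n : ℕ) (M : Type) [AddCommGroup M] [Module (ZMod 2) M] (x : Fin n → M) :
    cutL n n M x = x := by
  funext i; rw [cutL_apply, if_pos i.2]

theorem cutL_succ {n : ℕ} (j : Fin n) (M : Type) [AddCommGroup M] [Module (ZMod 2) M]
    (x : Fin n → M) :
    cutL n (j.1 + 1) M x = cutL n j.1 M x + LinearMap.single (ZMod 2) (fun _ => M) j (x j) := by
  funext i
  rw [Pi.add_apply, cutL_apply, cutL_apply, LinearMap.single_apply]
  by_cases h : i = j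
  · subst h
    rw [if_pos (Nat.lt_succ_self _), if_neg (lt_irrefl _), Pi.single_eq_same, zero_add]
  · rw [Pi.single_eq_of_ne h, add_zero]
    have h' : i.1 ≠ j.1 := fun hh => h (Fin.ext hh)
    by_cases h2 : i.1 < j.1
    · rw [if_pos h2, if_pos (by omega)]
    · rw [if_neg h2, if_neg (by omega)]

/-- the remaining part of `ρ` -/
def sg (ρ : (Fin n → V2 n) →ₗ[ZMod 2] V2 a) (j : ℕ) : (Fin n → V2 n) →ₗ[ZMod 2] V2 a :=
  ρ.comp (LinearMap.id - cutL n j (V2 n))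

theorem sg_apply (ρ : (Fin n → V2 n) →ₗ[ZMod 2] V2 a) (j : ℕ) (x : Fin n → V2 n) :
    sg ρ j x = ρ (x - cutL n j (V2 n) x) := rfl

theorem sg_zero (ρ : (Fin n → V2 n) →ₗ[ZMod 2] V2 a) : sg ρ 0 = ρ := by
  refine LinearMap.ext fun x => ?_
  rw [sg_apply, cutL_zero, sub_zero]

theorem sg_full (ρ : (Fin n → V2 n) →ₗ[ZMod 2] V2 a) : sg ρ n = 0 := by
  refine LinearMap.ext fun x => ?_
  rw [sg_apply, cutL_full, sub_self, map_zero]; rfl

theorem sg_succ (ρ : (Fin n → V2 n) →ₗ[ZMod 2] V2 a) (j : Fin n) (x : Fin n → V2 n) :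
    sg ρ j.1 x = sg ρ (j.1 + 1) x + ρ (LinearMap.single (ZMod 2) (fun _ => V2 n) j (x j)) := by
  rw [sg_apply, sg_apply, ← map_add, cutL_succ]
  congr 1
  abel

/-- the view `Q` -/
def thQ (E : Fin q → (V2 n →ₗ[ZMod 2] V2 a)) (ρ : (Fin n → V2 n) →ₗ[ZMod 2] V2 a) (j : ℕ)
    (b : Fin q) : (Fin n → V2 n) →ₗ[ZMod 2] (Fin n → V2 a) × V2 a :=
  ((rowL (E b) (Fin n)).comp (cutL n j (V2 n))).prod (sg ρ j)

/-- the view `II` -/
def thII (E : Fin q → (V2 n →ₗ[ZMod 2] V2 a)) (ρ : (Fin n → V2 n) →ₗ[ZMod 2] V2 a) (j : Fin n)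
    (c : Fin q) : (Fin n → V2 n) →ₗ[ZMod 2] (Fin a → V2 n) × (V2 n × V2 a) :=
  ((colL (E c) (Fin n)).comp (cutL n j.1 (V2 n))).prod
    ((LinearMap.proj j).prod (sg ρ (j.1 + 1)))

/-- the map `χ'` -/
def chi (E : Fin q → (V2 n →ₗ[ZMod 2] V2 a)) (j : Fin n) (c : Fin q) :
    (Fin n → V2 a) × V2 a →ₗ[ZMod 2] (Fin a → V2 a) × (V2 a × V2 a) :=
  (((colL (E c) (Fin a)).comp (cutL n j.1 (V2 a))).comp (LinearMap.fst _ _ _)).prod
    (((LinearMap.proj j).comp (LinearMap.fst _ _ _)).prod (LinearMap.snd _ _ _))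

/-- the map `κ` -/
def kap (E : Fin q → (V2 n →ₗ[ZMod 2] V2 a)) (ρ : (Fin n → V2 n) →ₗ[ZMod 2] V2 a) (j : Fin n)
    (b : Fin q) : (Fin a → V2 n) × (V2 n × V2 a) →ₗ[ZMod 2] (Fin a → V2 a) × V2 a :=
  ((rowL (E b) (Fin a)).comp (LinearMap.fst _ _ _)).prod
    ((LinearMap.snd _ _ _).comp (LinearMap.snd _ _ _) +
      (ρ.comp (LinearMap.single (ZMod 2) (fun _ => V2 n) j)).comp
        ((LinearMap.fst _ _ _).comp (LinearMap.snd _ _ _)))

theorem relA (E : Fin q → (V2 n →ₗ[ZMod 2] V2 a)) (ρ : (Fin n → V2 n) →ₗ[ZMod 2] V2 a)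
    (j : Fin n) (b c : Fin q) :
    (rowII (E b) (Fin a)).comp (thII E ρ j c) = (chi E j c).comp (thQ E ρ (j.1 + 1) b) := by
  refine LinearMap.ext fun x => ?_
  have h1 : cutL n j.1 (V2 a) (rowL (E b) (Fin n) (cutL n (j.1 + 1) (V2 n) x))
      = rowL (E b) (Fin n) (cutL n j.1 (V2 n) x) := by
    funext i
    rw [cutL_apply, rowL_apply, rowL_apply, cutL_apply, cutL_apply]
    by_cases h : i.1 < j.1
    · rw [if_pos h, if_pos h, if_pos (by omega)]
    · rw [if_neg h, if_neg h, map_zero]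
  have h2 : rowL (E b) (Fin n) (cutL n (j.1 + 1) (V2 n) x) j = E b (x j) := by
    rw [rowL_apply, cutL_apply, if_pos (Nat.lt_succ_self _)]
  refine Prod.ext ?_ (Prod.ext ?_ rfl)
  · change rowL (E b) (Fin a) (colL (E c) (Fin n) (cutL n j.1 (V2 n) x)) =
      colL (E c) (Fin a) (cutL n j.1 (V2 a) (rowL (E b) (Fin n) (cutL n (j.1 + 1) (V2 n) x)))
    rw [h1, row_col]
  · exact h2.symm

theorem relB (E : Fin q → (V2 n →ₗ[ZMod 2] V2 a)) (ρ : (Fin n → V2 n) →ₗ[ZMod 2] V2 a)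
    (j : Fin n) (b c : Fin q) :
    (colQ (E c) (Fin a)).comp (thQ E ρ j.1 b) = (kap E ρ j b).comp (thII E ρ j c) := by
  refine LinearMap.ext fun x => ?_
  refine Prod.ext ?_ ?_
  · exact (row_col (E b) (E c) (cutL n j.1 (V2 n) x)).symm
  · exact sg_succ ρ j x

theorem thQ_full (E : Fin q → (V2 n →ₗ[ZMod 2] V2 a)) (ρ : (Fin n → V2 n) →ₗ[ZMod 2] V2 a)
    (b : Fin q) : thQ E ρ n b = (LinearMap.inl (ZMod 2) _ _).comp (rowL (E b) (Fin n)) := by
  refine LinearMap.ext fun x => ?_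
  refine Prod.ext ?_ ?_
  · change rowL (E b) (Fin n) (cutL n n (V2 n) x) = rowL (E b) (Fin n) x
    rw [cutL_full]
  · change sg ρ n x = 0
    rw [sg_full]; rfl

end maps

/-- the statement at level `j` -/
def LevelJ (D W0 h : ℕ) {n a q : ℕ} {κ0 : Type} (R0 : κ0 → ((Fin n → V2 n) →ₗ[ZMod 2] V2 a))
    (E : Fin q → (V2 n →ₗ[ZMod 2] V2 a)) (ρ : (Fin n → V2 n) →ₗ[ZMod 2] V2 a)
    (A S : ℕ) (j : ℕ) : Prop :=
  ∀ (κ' : Type) [Fintype κ'] (R' : Fin q → κ' → ((Fin n → V2 a) × V2 a →ₗ[ZMod 2] V2 a)),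
    Tst D W0 h 3 (A + S * Fintype.card κ')
      (Sum.elim R0 fun p : Fin q × κ' => (R' p.1 p.2).comp (thQ E ρ j p.1))

theorem dims {n a d : ℕ} (ha : 1 ≤ a) (han : a ≤ n) (hd : 2 * a * n + a ≤ d) :
    Module.finrank (ZMod 2) ((Fin a → V2 n) × (V2 n × V2 a)) ≤ d ∧
    Module.finrank (ZMod 2) ((Fin n → V2 a) × V2 a) ≤ d ∧
    Module.finrank (ZMod 2) ((Fin a → V2 a) × (V2 a × V2 a)) ≤ d ∧
    Module.finrank (ZMod 2) ((Fin a → V2 a) × V2 a) ≤ d := by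
  have h1 : n ≤ a * n := Nat.le_mul_of_pos_left n ha
  have h2 : a * a ≤ a * n := Nat.mul_le_mul_left a han
  have h3 : 2 * a * n = a * n + a * n := by ring
  have h4 : n * a = a * n := Nat.mul_comm n a
  refine ⟨?_, ?_, ?_, ?_⟩
  · rw [Module.finrank_prod, Module.finrank_prod, finrank_mat, Fintype.card_fin, finrank_V2,
      finrank_V2]
    omega
  · rw [Module.finrank_prod, finrank_mat, Fintype.card_fin, finrank_V2]
    omega
  · rw [Module.finrank_prod, Module.finrank_prod, finrank_mat, Fintype.card_fin, finrank_V2]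
    omega
  · rw [Module.finrank_prod, finrank_mat, Fintype.card_fin, finrank_V2]
    omega

theorem stepA {n a D q W0 d N A h : ℕ} {e : ℝ} (he2 : 2 * e < 1) (hh : 10 ≤ h) (hq : 0 < q)
    (hd : Module.finrank (ZMod 2) ((Fin a → V2 n) × (V2 n × V2 a)) ≤ d)
    (hP : CodeP a D W0 h d N) (E : Fin q → (V2 n →ₗ[ZMod 2] V2 a)) (hE : VLoss W0 e E)
    (F : Fin q → ((Fin a → V2 a) × (V2 a × V2 a) →ₗ[ZMod 2] V2 a)) (sF : Sepa W0 F)
    (ρ : (Fin n → V2 n) →ₗ[ZMod 2] V2 a) {κ0 κ1 : Type} [Fintype κ1]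
    (R0 : κ0 → ((Fin n → V2 n) →ₗ[ZMod 2] V2 a)) (j : Fin n)
    (K : κ1 → ((Fin a → V2 n) × (V2 n × V2 a) →ₗ[ZMod 2] V2 a))
    (H : LevelJ D W0 h R0 E ρ A (q * N) (j.1 + 1)) :
    Tst D W0 h 3 (A + q * N * (q * q) + q * (N * (1 + (q * q + Fintype.card κ1))))
      (Sum.elim R0 fun p : Fin q × κ1 => (K p.2).comp (thII E ρ j p.1)) := by
  have sA : Sepa W0 (fun p : Fin q × Fin q => (F p.2).comp (rowII (E p.1) (Fin a))) :=
    Sepa.comp (T := fun b => rowII (E b) (Fin a)) (rowII_lossless hE (Fin a)) sF hq he2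
  have h1 : Tst D W0 h 3 (A + q * N * (q * q)) (Sum.elim R0 fun p : Fin q × (Fin q × Fin q) =>
      ((F p.2.2).comp (rowII (E p.2.1) (Fin a))).comp (thII E ρ j p.1)) := by
    have h1 := H (Fin q × Fin q) (fun b p => (F p.2).comp (chi E j p.1))
    refine h1.mono ?_ ?_
    · rw [Fintype.card_prod, Fintype.card_fin]
    · rintro (k | ⟨c, b, v⟩)
      · exact ⟨Sum.inl k, rfl⟩
      · refine ⟨Sum.inr (b, (c, v)), ?_⟩
        simp only [Sum.elim_inr]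
        rw [LinearMap.comp_assoc, LinearMap.comp_assoc, relA]
  have h2 : Tst D W0 h 2 (N * (1 + (q * q + Fintype.card κ1)))
      (Sum.elim (fun p : Fin q × Fin q => (F p.2).comp (rowII (E p.1) (Fin a))) K) := by
    have h1 := CodeFor.tst (hP _ hd) (Sum.elim
      (fun p : Fin q × Fin q => (F p.2).comp (rowII (E p.1) (Fin a))) K)
    rw [Fintype.card_sum, Fintype.card_prod, Fintype.card_fin] at h1
    exact h1
  have h3 := Tst.factor (C := Fin q) (θ := fun c => thII E ρ j c)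
    (G := fun _ (p : Fin q × Fin q) => (F p.2).comp (rowII (E p.1) (Fin a)))
    (R' := fun _ => K) (fun _ => sA) (by omega) h1 (fun _ => h2)
  rw [Fintype.card_fin] at h3
  exact h3

theorem stepB {n a D q W0 d N A h : ℕ} {e : ℝ} (he2 : 2 * e < 1) (hh : 10 ≤ h) (hq : 0 < q)
    (hd : Module.finrank (ZMod 2) ((Fin n → V2 a) × V2 a) ≤ d)
    (hP : CodeP a D W0 h d N) (E : Fin q → (V2 n →ₗ[ZMod 2] V2 a)) (hE : VLoss W0 e E)
    (F' : Fin q → ((Fin a → V2 a) × V2 a →ₗ[ZMod 2] V2 a)) (sF' : Sepa W0 F')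
    (ρ : (Fin n → V2 n) →ₗ[ZMod 2] V2 a) {κ0 κ' : Type} [Fintype κ']
    (R0 : κ0 → ((Fin n → V2 n) →ₗ[ZMod 2] V2 a)) (j : Fin n)
    (R' : Fin q → κ' → ((Fin n → V2 a) × V2 a →ₗ[ZMod 2] V2 a))
    (H : Tst D W0 h 3 A (Sum.elim R0 fun p : Fin q × (Fin q × Fin q) =>
      ((F' p.2.2).comp (kap E ρ j p.2.1)).comp (thII E ρ j p.1))) :
    Tst D W0 h 3 (A + q * (N * (1 + (q * q + Fintype.card κ'))))
      (Sum.elim R0 fun p : Fin q × κ' => (R' p.1 p.2).comp (thQ E ρ j.1 p.1)) := by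
  have sB : Sepa W0 (fun p : Fin q × Fin q => (F' p.2).comp (colQ (E p.1) (Fin a))) :=
    Sepa.comp (T := fun c => colQ (E c) (Fin a)) (colQ_lossless hE (Fin a)) sF' hq he2
  have h1 : Tst D W0 h 3 A (Sum.elim R0 fun p : Fin q × (Fin q × Fin q) =>
      ((F' p.2.2).comp (colQ (E p.2.1) (Fin a))).comp (thQ E ρ j.1 p.1)) := by
    refine H.mono le_rfl ?_
    rintro (k | ⟨b, c, v⟩)
    · exact ⟨Sum.inl k, rfl⟩
    · refine ⟨Sum.inr (c, (b, v)), ?_⟩
      simp only [Sum.elim_inr]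
      rw [LinearMap.comp_assoc, LinearMap.comp_assoc, relB]
  have h2 : ∀ b, Tst D W0 h 2 (N * (1 + (q * q + Fintype.card κ')))
      (Sum.elim (fun p : Fin q × Fin q => (F' p.2).comp (colQ (E p.1) (Fin a))) (R' b)) := by
    intro b
    have h1 := CodeFor.tst (hP _ hd) (Sum.elim
      (fun p : Fin q × Fin q => (F' p.2).comp (colQ (E p.1) (Fin a))) (R' b))
    rw [Fintype.card_sum, Fintype.card_prod, Fintype.card_fin] at h1
    exact h1
  have h3 := Tst.factor (C := Fin q) (θ := fun b => thQ E ρ j.1 b)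
    (G := fun _ (p : Fin q × Fin q) => (F' p.2).comp (colQ (E p.1) (Fin a)))
    (R' := R') (fun _ => sB) (by omega) h1 h2
  rw [Fintype.card_fin] at h3
  exact h3

theorem chain_step {n a D q W0 d N h : ℕ} {e : ℝ} (he2 : 2 * e < 1) (hh : 10 ≤ h) (hq : 0 < q)
    (ha : 1 ≤ a) (han : a ≤ n) (hd : 2 * a * n + a ≤ d) (hcond : HasCond a W0 d q e)
    (hP : CodeP a D W0 h d N) (E : Fin q → (V2 n →ₗ[ZMod 2] V2 a)) (hE : VLoss W0 e E)
    (ρ : (Fin n → V2 n) →ₗ[ZMod 2] V2 a) {κ0 : Type}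
    (R0 : κ0 → ((Fin n → V2 n) →ₗ[ZMod 2] V2 a)) (A : ℕ) (j : Fin n)
    (H : LevelJ D W0 h R0 E ρ A (q * N) (j.1 + 1)) :
    LevelJ D W0 h R0 E ρ (A + q * N * (2 + 4 * (q * q))) (q * N) j.1 := by
  intro κ' _ R'
  obtain ⟨dVII, dVQ, dVT, dVT'⟩ := dims ha han hd
  obtain ⟨F, hF⟩ := hcond ((Fin a → V2 a) × (V2 a × V2 a)) dVT
  obtain ⟨F', hF'⟩ := hcond ((Fin a → V2 a) × V2 a) dVT'
  have sF : Sepa W0 F := Sepa.of_vloss hF hq he2
  have sF' : Sepa W0 F' := Sepa.of_vloss hF' hq he2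
  have hA := stepA he2 hh hq dVII hP E hE F sF ρ R0 j
    (fun p : Fin q × Fin q => (F' p.2).comp (kap E ρ j p.1)) H
  have hB := stepB he2 hh hq dVQ hP E hE F' sF' ρ R0 j R' hA
  refine hB.mono ?_ (fun k => ⟨k, rfl⟩)
  rw [Fintype.card_prod, Fintype.card_fin]
  apply le_of_eq
  ring

theorem chain {n a D q W0 d N h : ℕ} {e : ℝ} (he2 : 2 * e < 1) (hh : 10 ≤ h) (hq : 0 < q)
    (ha : 1 ≤ a) (han : a ≤ n) (hd : 2 * a * n + a ≤ d) (hcond : HasCond a W0 d q e)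
    (hP : CodeP a D W0 h d N) (E : Fin q → (V2 n →ₗ[ZMod 2] V2 a)) (hE : VLoss W0 e E)
    (ρ : (Fin n → V2 n) →ₗ[ZMod 2] V2 a) {κ0 : Type}
    (R0 : κ0 → ((Fin n → V2 n) →ₗ[ZMod 2] V2 a)) (A : ℕ)
    (H : LevelJ D W0 h R0 E ρ A (q * N) n) : ∀ j : ℕ, j ≤ n →
    LevelJ D W0 h R0 E ρ (A + j * (q * N * (2 + 4 * (q * q)))) (q * N) (n - j) := by
  intro j
  induction j with
  | zero =>
    intro _
    simpa using H
  | succ j ih =>
    intro hj
    have h1 := ih (by omega)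
    have h2 : n - j = (n - (j + 1)) + 1 := by omega
    rw [h2] at h1
    have h3 := chain_step he2 hh hq ha han hd hcond hP E hE ρ R0 _
      (⟨n - (j + 1), by omega⟩ : Fin n) h1
    have h4 : A + j * (q * N * (2 + 4 * (q * q))) + q * N * (2 + 4 * (q * q)) =
      A + (j + 1) * (q * N * (2 + 4 * (q * q))) := by ring
    rw [h4] at h3
    exact h3

end Vale.Agent.P318.H653
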