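import Vale.Agent.P318.H653.Tst

/-!
# P318, tensor step: operators on matrices

`rowL E J` applies `E` to every row, `colL E L` applies `E` to every column.
-/

namespace Vale.Agent.P318.H653

open Finset
open Vale.Agent.P318.H937 (push sz Lossless)
open Vale.Agent.P318.H283

variable {n m a q W0 : ℕ} {e : ℝ}

/-- `E` on every row -/
def rowL (E : V2 n →ₗ[ZMod 2] V2 a) (J : Type) : (J → V2 n) →ₗ[ZMod 2] (J → V2 a) where
  toFun x j := E (x j)
  map_add' x y := by funext j; simp
  map_smul' c x := by funext j; simp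

/-- `E` on every column -/
def colL (E : V2 n →ₗ[ZMod 2] V2 a) (L : Type) :
    (Fin n → L → ZMod 2) →ₗ[ZMod 2] (Fin a → L → ZMod 2) where
  toFun x i l := E (fun j => x j l) i
  map_add' x y := by
    funext i l
    have : (fun j => (x + y) j l) = (fun j => x j l) + (fun j => y j l) := rfl
    rw [this, map_add]; rfl
  map_smul' c x := by
    funext i l
    have : (fun j => (c • x) j l) = c • (fun j => x j l) := rfl
    rw [this, map_smul]; rfl

@[simp] theorem rowL_apply (E : V2 n →ₗ[ZMod 2] V2 a) (J : Type) (x : J → V2 n) (j : J) :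
    rowL E J x j = E (x j) := rfl

@[simp] theorem colL_apply (E : V2 n →ₗ[ZMod 2] V2 a) (L : Type) (x : Fin n → L → ZMod 2)
    (i : Fin a) (l : L) : colL E L x i l = E (fun j => x j l) i := rfl

/-- rows and columns commute -/
theorem row_col (E : V2 n →ₗ[ZMod 2] V2 a) (G : V2 m →ₗ[ZMod 2] V2 a)
    (x : Fin m → V2 n) :
    rowL E (Fin a) (colL G (Fin n) x) = colL G (Fin a) (rowL E (Fin m) x) := by
  funext i k
  rw [rowL_apply, colL_apply]
  have h1 : (fun j => rowL E (Fin m) x j k)
      = ∑ l, (E (fun l' => if l = l' then 1 else 0) k) • (fun j => x j l) := by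
    funext j
    rw [rowL_apply, LinearMap.pi_apply_eq_sum_univ E (x j), Finset.sum_apply, Finset.sum_apply]
    refine sum_congr rfl fun l _ => ?_
    simp only [Pi.smul_apply, smul_eq_mul]
    ring
  rw [h1, map_sum, Finset.sum_apply,
    LinearMap.pi_apply_eq_sum_univ E (colL G (Fin n) x i), Finset.sum_apply]
  refine sum_congr rfl fun l _ => ?_
  rw [map_smul]
  simp only [Pi.smul_apply, smul_eq_mul, colL_apply]
  ring

/-! ### losslessness -/

theorem row_lossless {E : Fin q → (V2 n →ₗ[ZMod 2] V2 a)} (h : VLoss W0 e E) (J : Type)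
    [Fintype J] [DecidableEq J] :
    Lossless univ (fun z (x : J → V2 n) => rowL (E z) J x) W0 e :=
  Lossless.comap (h J Unit) (fun x => (x, ())) (fun _ _ hp => congrArg Prod.fst hp)
    (fun x => (x, ())) (fun _ _ => rfl)

theorem col_lossless {E : Fin q → (V2 n →ₗ[ZMod 2] V2 a)} (h : VLoss W0 e E) (L : Type)
    [Fintype L] [DecidableEq L] :
    Lossless univ (fun z (x : Fin n → L → ZMod 2) => colL (E z) L x) W0 e :=
  Lossless.comap (h L Unit) (fun x => (fun l j => x j l, ()))
    (fun x y hp => by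
      have h1 := congrArg Prod.fst hp
      funext j l
      exact congrFun (congrFun h1 l) j)
    (fun x => (fun l i => x i l, ())) (fun _ _ => rfl)

theorem col_lossless_label {E : Fin q → (V2 n →ₗ[ZMod 2] V2 a)} (h : VLoss W0 e E) (L L' : Type)
    [Fintype L] [DecidableEq L] [Fintype L'] [DecidableEq L'] :
    Lossless univ (fun z (p : (Fin n → L → ZMod 2) × L') => (colL (E z) L p.1, p.2)) W0 e :=
  Lossless.comap (h L L') (fun p => (fun l j => p.1 j l, p.2))
    (fun x y hp => by
      have h1 := congrArg Prod.fst hp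
      have h2 := congrArg Prod.snd hp
      refine Prod.ext ?_ h2
      funext j l
      exact congrFun (congrFun h1 l) j)
    (fun p => (fun l i => p.1 i l, p.2)) (fun _ _ => rfl)

/-- two matrices -/
def row2 (E : V2 n →ₗ[ZMod 2] V2 a) (J : Type) :
    (J → V2 n) × (J → V2 n) →ₗ[ZMod 2] (J → V2 a) × (J → V2 a) :=
  (rowL E J).prodMap (rowL E J)

theorem row2_lossless {E : Fin q → (V2 n →ₗ[ZMod 2] V2 a)} (h : VLoss W0 e E) (J : Type)
    [Fintype J] [DecidableEq J] :
    Lossless univ (fun z (x : (J → V2 n) × (J → V2 n)) => row2 (E z) J x) W0 e :=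
  Lossless.comap (h (J ⊕ J) Unit) (fun x => (Sum.elim x.1 x.2, ()))
    (fun x y hp => by
      have h1 := congrArg Prod.fst hp
      refine Prod.ext ?_ ?_
      · funext j; exact congrFun h1 (Sum.inl j)
      · funext j; exact congrFun h1 (Sum.inr j))
    (fun x => (Sum.elim x.1 x.2, ()))
    (fun z x => by
      refine Prod.ext ?_ rfl
      funext j
      rcases j with j | j <;> rfl)

/-- `E` on a matrix and on a vector, label kept -/
def rowII (E : V2 n →ₗ[ZMod 2] V2 a) (J : Type) :
    (J → V2 n) × (V2 n × V2 a) →ₗ[ZMod 2] (J → V2 a) × (V2 a × V2 a) :=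
  (rowL E J).prodMap (E.prodMap LinearMap.id)

theorem rowII_lossless {E : Fin q → (V2 n →ₗ[ZMod 2] V2 a)} (h : VLoss W0 e E) (J : Type)
    [Fintype J] [DecidableEq J] :
    Lossless univ (fun z (x : (J → V2 n) × (V2 n × V2 a)) => rowII (E z) J x) W0 e :=
  Lossless.comap (h (J ⊕ Unit) (V2 a)) (fun x => (Sum.elim x.1 (fun _ => x.2.1), x.2.2))
    (fun x y hp => by
      have h1 := congrArg Prod.fst hp
      have h2 := congrArg Prod.snd hp
      refine Prod.ext ?_ (Prod.ext ?_ h2)
      · funext j; exact congrFun h1 (Sum.inl j)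
      · exact congrFun h1 (Sum.inr ()))
    (fun x => (Sum.elim x.1 (fun _ => x.2.1), x.2.2))
    (fun z x => by
      refine Prod.ext ?_ rfl
      funext j
      rcases j with j | j <;> rfl)

/-- `E` on the columns, label kept -/
def colQ (E : V2 n →ₗ[ZMod 2] V2 a) (L : Type) :
    (Fin n → L → ZMod 2) × V2 a →ₗ[ZMod 2] (Fin a → L → ZMod 2) × V2 a :=
  (colL E L).prodMap LinearMap.id

theorem colQ_lossless {E : Fin q → (V2 n →ₗ[ZMod 2] V2 a)} (h : VLoss W0 e E) (L : Type)
    [Fintype L] [DecidableEq L] :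
    Lossless univ (fun z (x : (Fin n → L → ZMod 2) × V2 a) => colQ (E z) L x) W0 e :=
  col_lossless_label h L (V2 a)

/-! ### dimensions -/

theorem finrank_mat (J : Type) [Fintype J] (n : ℕ) :
    Module.finrank (ZMod 2) (J → V2 n) = Fintype.card J * n := by
  rw [Module.finrank_pi_fintype]
  simp

end Vale.Agent.P318.H653
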