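import Vale.Agent.P318.H653.Tensor
import Vale.Agent.P318.H505.Inst
import Vale.Agent.P318.H986.SpecCond

/-!
# P318, the tensor step in the form of the recursion (`TStep`)
-/

namespace Vale.Agent.P318.H653

open Finset
open Vale.Agent.P318.H937 (push sz Lossless)
open Vale.Agent.P318.H283
open Vale.Agent.P318.H505 (TStep mono_codeP)

/-- **The tensor step** for `CodeP`: from `2 a n + a` to `n ^ 2`. -/
theorem tstep {a w J D h : ℕ} (ha : 2 * w + 2 * J ≤ a) (haD : a ≤ D) (hh : 10 ≤ h) :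
    TStep (CodeP a D (2 ^ w) h) a w J 7 12 := by
  intro n j N hn hsz hjJ hP
  have h8 : 8 ≤ j := by
    have h1 : 1 ≤ n * ((2 * a * n + a + 2) * ((2 * w + 1) * (w + 1))) :=
      Nat.one_le_iff_ne_zero.mpr (by positivity)
    have h2 : 2 ^ 8 ≤ 2 ^ j := by
      calc 2 ^ 8 = 2 ^ 8 * 1 := (mul_one _).symm
        _ ≤ _ := (Nat.mul_le_mul_left _ h1).trans hsz
    exact (Nat.pow_le_pow_iff_right (by norm_num)).1 h2
  have hj1 : 1 ≤ (2 ^ j) ^ 12 := Nat.one_le_pow _ _ (by positivity)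
  rcases lt_or_ge n a with hna | han
  · refine mono_codeP a D (2 ^ w) h _ _ _ _ ?_ ?_ hP
    · nlinarith
    · calc N ≤ 1 * (N + 1) := by omega
        _ ≤ 2 ^ 7 * n * (2 ^ j) ^ 12 * (N + 1) := by
          apply Nat.mul_le_mul_right
          exact Nat.one_le_iff_ne_zero.mpr (by positivity)
  -- the main case
  have ha1 : 1 ≤ a := by omega
  obtain ⟨q, hqdef⟩ : ∃ q, q = 2 ^ (2 * j) := ⟨_, rfl⟩
  have hq : 1 ≤ q := by rw [hqdef]; exact Nat.one_le_two_pow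
  have hcond := H986.hasCond j w (2 * a * n + a) a (by omega) (by omega)
  have hcond' := H986.hasCond j w (n ^ 2) a (by omega) (by omega)
  rw [← hqdef] at hcond hcond'
  have hl1 : (200 * n : ℕ) * ((2 * (w : ℝ) + 1) * ((((2 * a * n + a : ℕ) : ℝ) + 2) * (w + 1)) / 2 ^ j)
      ≤ 1 := by
    apply H505.loss_le
    refine le_trans ?_ hsz
    calc 200 * n * ((2 * a * n + a + 2) * ((2 * w + 1) * (w + 1)))
        = 200 * (n * ((2 * a * n + a + 2) * ((2 * w + 1) * (w + 1)))) := by ring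
      _ ≤ _ := Nat.mul_le_mul_right _ (by norm_num)
  have hl2 : (4 : ℕ) * ((2 * (w : ℝ) + 1) * ((((n ^ 2 : ℕ) : ℝ) + 2) * (w + 1)) / 2 ^ j) ≤ 1 := by
    apply H505.loss_le
    refine le_trans ?_ hsz
    have h1 : n ^ 2 + 2 ≤ n * (2 * a * n + a + 2) := by nlinarith
    calc 4 * ((n ^ 2 + 2) * ((2 * w + 1) * (w + 1)))
        ≤ 4 * (n * (2 * a * n + a + 2) * ((2 * w + 1) * (w + 1))) :=
          Nat.mul_le_mul_left _ (Nat.mul_le_mul_right _ h1)
      _ = 4 * (n * ((2 * a * n + a + 2) * ((2 * w + 1) * (w + 1)))) := by ring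
      _ ≤ _ := Nat.mul_le_mul_right _ (by norm_num)
  generalize hel1 : ((2 * (w : ℝ) + 1) * ((((2 * a * n + a : ℕ) : ℝ) + 2) * (w + 1)) / 2 ^ j) = e1
    at hcond hl1
  generalize hel2 : ((2 * (w : ℝ) + 1) * ((((n ^ 2 : ℕ) : ℝ) + 2) * (w + 1)) / 2 ^ j) = e2
    at hcond' hl2
  have he1 : 0 ≤ e1 := by rw [← hel1]; positivity
  have hn1 : (1 : ℝ) ≤ n := by exact_mod_cast hn
  have h200n : 200 * n * e1 ≤ 1 := by push_cast at hl1; exact hl1
  have h200 : 200 * e1 ≤ 1 := by nlinarith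
  have h4 : 4 * e2 ≤ 1 := by push_cast at hl2; exact hl2
  obtain ⟨E, hE⟩ := hcond (V2 n) (by rw [finrank_V2]; nlinarith)
  have hmat := codeFor_mat (n := n) he1 h200 h4 hh hq h200n ha1 han haD le_rfl hcond hcond' hP E hE
  -- all spaces of dimension at most `n ^ 2`
  intro Y _ _ _ _ hY
  have dY : Module.finrank (ZMod 2) (Fin n → V2 n) = n ^ 2 := by
    rw [finrank_mat, Fintype.card_fin, sq]
  obtain ⟨f, hf⟩ := exists_inj Y (n ^ 2) hY
  let eq : V2 (n ^ 2) ≃ₗ[ZMod 2] (Fin n → V2 n) :=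
    LinearEquiv.ofFinrankEq _ _ (by rw [finrank_V2, dY])
  obtain ⟨F, hF⟩ := hcond' (Fin n → V2 n) dY.le
  have h5 := retract F hF (by linarith) hq (by omega) (eq.toLinearMap ∘ₗ f)
    (eq.injective.comp hf) hmat
  intro κ _ R
  obtain ⟨ι, _, T, hT, h6⟩ := h5 κ R
  refine ⟨ι, _, T, hT.trans (Nat.mul_le_mul_right _ ?_), h6⟩
  have e12 : (2 ^ j) ^ 12 = q ^ 6 := by rw [hqdef, ← pow_mul, ← pow_mul]; congr 1; ring
  rw [e12]
  calc 26 * n * q ^ 5 * (N + 1) * (1 + 2 * q) ≤ 26 * n * q ^ 5 * (N + 1) * (3 * q) :=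
        Nat.mul_le_mul_left _ (by omega)
    _ = 78 * (n * q ^ 6 * (N + 1)) := by ring
    _ ≤ 128 * (n * q ^ 6 * (N + 1)) := Nat.mul_le_mul_right _ (by norm_num)
    _ = 2 ^ 7 * n * q ^ 6 * (N + 1) := by ring

end Vale.Agent.P318.H653
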