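import Vale.Agent.P318.H653.TChain

/-!
# P318, the tensor step
-/

namespace Vale.Agent.P318.H653

open Finset
open Vale.Agent.P318.H937 (push sz Lossless)
open Vale.Agent.P318.H283

/-- number of tests of the gluing level without maps -/
def XB (q N : ℕ) : ℕ :=
  q * (N * (1 + (q + q * (q * q)))) + (q * (N * (1 + q)) + q * q * (N * (1 + (q + (q + q * q)))))

/-- the separating family of the matrices -/
def GY {n a q : ℕ} (E : Fin q → (V2 n →ₗ[ZMod 2] V2 a))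
    (F0 : Fin q → ((Fin n → V2 a) →ₗ[ZMod 2] V2 a)) :
    Fin q × Fin q → ((Fin n → V2 n) →ₗ[ZMod 2] V2 a) :=
  fun p => (F0 p.2).comp (rowL (E p.1) (Fin n))

theorem base_with {n a D q W0 d N h : ℕ} {e : ℝ} (h0 : 0 ≤ e) (h200 : 200 * e ≤ 1) (hh : 10 ≤ h) (hq : 0 < q)
    (hen : 200 * n * e ≤ 1)
    (han : a ≤ n) (hd : 2 * a * n + a ≤ d) (hcond : HasCond a W0 d q e)
    (hP : CodeP a D W0 h d N) (E : Fin q → (V2 n →ₗ[ZMod 2] V2 a)) (hE : VLoss W0 e E)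
    (F0 : Fin q → ((Fin n → V2 a) →ₗ[ZMod 2] V2 a))
    {κ' : Type} [Fintype κ'] (R : Fin q → κ' → ((Fin n → V2 a) →ₗ[ZMod 2] V2 a)) :
    Tst D W0 h 3 (XB q N + q * N * Fintype.card κ')
      (Sum.elim (GY E F0) (fun p : Fin q × κ' => (R p.1 p.2).comp (rowL (E p.1) (Fin n)))) := by
  have h1 := base_level h0 h200 hh hq hen han hd hcond hP E hE
    (fun b => Sum.elim F0 (R b))
  refine h1.mono ?_ ?_
  · rw [Fintype.card_sum, Fintype.card_fin]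
    unfold XB
    apply le_of_eq
    ring
  · rintro (⟨b, v⟩ | ⟨b, k⟩)
    · exact ⟨(b, Sum.inl v), rfl⟩
    · exact ⟨(b, Sum.inr k), rfl⟩

theorem level_full {n a D q W0 d N h : ℕ} {e : ℝ} (h0 : 0 ≤ e) (h200 : 200 * e ≤ 1) (hh : 10 ≤ h) (hq : 0 < q)
    (hen : 200 * n * e ≤ 1)
    (han : a ≤ n) (hd : 2 * a * n + a ≤ d) (hcond : HasCond a W0 d q e)
    (hP : CodeP a D W0 h d N) (E : Fin q → (V2 n →ₗ[ZMod 2] V2 a)) (hE : VLoss W0 e E)
    (F0 : Fin q → ((Fin n → V2 a) →ₗ[ZMod 2] V2 a))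
    (ρ : (Fin n → V2 n) →ₗ[ZMod 2] V2 a) :
    LevelJ D W0 h (GY E F0) E ρ (XB q N) (q * N) n := by
  intro κ' _ R'
  have h1 := base_with h0 h200 hh hq hen han hd hcond hP E hE F0
    (fun b k => (R' b k).comp (LinearMap.inl (ZMod 2) _ _))
  refine h1.mono le_rfl ?_
  rintro (k | ⟨b, k⟩)
  · exact ⟨Sum.inl k, rfl⟩
  · refine ⟨Sum.inr (b, k), ?_⟩
    simp only [Sum.elim_inr]
    rw [LinearMap.comp_assoc, thQ_full]

/-- one arbitrary map -/
theorem one_map {n a D q W0 d N h : ℕ} {e : ℝ} (h0 : 0 ≤ e) (h200 : 200 * e ≤ 1) (hh : 10 ≤ h) (hq : 0 < q)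
    (hen : 200 * n * e ≤ 1)
    (ha : 1 ≤ a) (han : a ≤ n) (hd : 2 * a * n + a ≤ d) (hcond : HasCond a W0 d q e)
    (hP : CodeP a D W0 h d N) (E : Fin q → (V2 n →ₗ[ZMod 2] V2 a)) (hE : VLoss W0 e E)
    (F0 : Fin q → ((Fin n → V2 a) →ₗ[ZMod 2] V2 a))
    (ρ : (Fin n → V2 n) →ₗ[ZMod 2] V2 a) :
    Tst D W0 h 3 (XB q N + n * (q * N * (2 + 4 * (q * q))) + q * N)
      (Sum.elim (GY E F0) (fun _ : Unit => ρ)) := by
  have h1 := chain (by linarith) hh hq ha han hd hcond hP E hE ρ (GY E F0) (XB q N)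
    (level_full h0 h200 hh hq hen han hd hcond hP E hE F0 ρ) n le_rfl
  rw [Nat.sub_self] at h1
  have h2 := h1 Unit (fun _ _ => LinearMap.snd _ _ _)
  refine h2.mono ?_ ?_
  · rw [Fintype.card_unit, mul_one]
  · rintro (k | k)
    · exact ⟨Sum.inl k, rfl⟩
    · refine ⟨Sum.inr (⟨0, hq⟩, ()), ?_⟩
      simp only [Sum.elim_inr]
      refine LinearMap.ext fun x => ?_
      change ρ x = sg ρ 0 x
      rw [sg_zero]

/-- all maps -/
theorem all_maps {n a D q W0 d N h : ℕ} {e : ℝ} (h0 : 0 ≤ e) (h200 : 200 * e ≤ 1) (hh : 10 ≤ h) (hq : 0 < q)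
    (hen : 200 * n * e ≤ 1)
    (ha : 1 ≤ a) (han : a ≤ n) (hd : 2 * a * n + a ≤ d) (hcond : HasCond a W0 d q e)
    (hP : CodeP a D W0 h d N) (E : Fin q → (V2 n →ₗ[ZMod 2] V2 a)) (hE : VLoss W0 e E)
    {κ : Type} [Fintype κ]
    (R : κ → ((Fin n → V2 n) →ₗ[ZMod 2] V2 a)) :
    Tst D W0 h 3 (XB q N + Fintype.card κ *
      (XB q N + n * (q * N * (2 + 4 * (q * q))) + q * N)) R := by
  have dZQ : Module.finrank (ZMod 2) (Fin n → V2 a) ≤ d := by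
    rw [finrank_mat, Fintype.card_fin]
    nlinarith
  obtain ⟨F0, hF0⟩ := hcond (Fin n → V2 a) dZQ
  have he2 : 2 * e < 1 := by linarith
  have sG : Sepa W0 (GY E F0) := Sepa.comp (T := fun b => rowL (E b) (Fin n))
    (row_lossless hE (Fin n)) (Sepa.of_vloss hF0 hq he2) hq he2
  have h1 : Tst D W0 h 3 (XB q N) (Sum.elim (GY E F0)
      (fun p : κ × (Fin q × Fin q) => (GY E F0 p.2).comp LinearMap.id)) := by
    have h2 := base_with h0 h200 hh hq hen han hd hcond hP E hE F0 (κ' := Empty)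
      (fun _ k => k.elim)
    refine h2.mono ?_ ?_
    · rw [Fintype.card_eq_zero, mul_zero, add_zero]
    · rintro (k | ⟨_, k⟩)
      · exact ⟨Sum.inl k, rfl⟩
      · refine ⟨Sum.inl k, ?_⟩
        simp only [Sum.elim_inr, LinearMap.comp_id]
        rfl
  have h3 := Tst.factor (C := κ) (κ' := Unit) (θ := fun _ => LinearMap.id)
    (G := fun _ => GY E F0) (R' := fun k _ => R k) (fun _ => sG) (by omega) h1
    (fun k => one_map h0 h200 hh hq hen ha han hd hcond hP E hE F0 (R k))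
  refine h3.mono le_rfl ?_
  intro k
  exact ⟨Sum.inr (k, ()), rfl⟩

theorem XB_le (q N : ℕ) (hq : 0 < q) : XB q N ≤ 9 * q ^ 4 * N := by
  have h1 : 1 ≤ q := hq
  have h2 : q ≤ q ^ 2 := by nlinarith
  have h3 : q ^ 2 ≤ q ^ 3 := by nlinarith [Nat.mul_le_mul_left (q ^ 2) h1]
  have h4 : q ^ 3 ≤ q ^ 4 := by nlinarith [Nat.mul_le_mul_left (q ^ 3) h1]
  have h5 : XB q N = (2 * q + 3 * q ^ 2 + 2 * q ^ 3 + 2 * q ^ 4) * N := by
    unfold XB; ring
  rw [h5]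
  exact Nat.mul_le_mul_right N (by omega)

/-- the code property of the matrices -/
theorem codeFor_mat {n a D q W0 d N h : ℕ} {e e' : ℝ} (h0 : 0 ≤ e) (h200 : 200 * e ≤ 1)
    (h4 : 4 * e' ≤ 1) (hh : 10 ≤ h) (hq : 0 < q) (hen : 200 * n * e ≤ 1)
    (ha : 1 ≤ a) (han : a ≤ n) (haD : a ≤ D) (hd : 2 * a * n + a ≤ d)
    (hcond : HasCond a W0 d q e) (hcond' : HasCond a W0 (n ^ 2) q e')
    (hP : CodeP a D W0 h d N) (E : Fin q → (V2 n →ₗ[ZMod 2] V2 a)) (hE : VLoss W0 e E)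
    :
    CodeFor a D W0 h (Fin n → V2 n) (26 * n * q ^ 5 * (N + 1)) := by
  apply codeFor_of_tst
  intro κ _ R
  have dY : Module.finrank (ZMod 2) (Fin n → V2 n) ≤ n ^ 2 := by
    rw [finrank_mat, Fintype.card_fin, sq]
  obtain ⟨F, hF⟩ := hcond' (Fin n → V2 n) dY
  have h1 := all_maps h0 h200 hh hq hen ha han hd hcond hP E hE (Sum.elim F R)
  have h2 := Tst.shrink hF hq h4 haD (by omega) h1
  refine h2.mono ?_ (fun k => ⟨k, rfl⟩)
  rw [Fintype.card_sum, Fintype.card_fin]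
  have hX := XB_le q N hq
  have hn : 1 ≤ n := ha.trans han
  have q1 : 1 ≤ q := hq
  have q2 : q ≤ q ^ 2 := by nlinarith
  have q3 : q ^ 2 ≤ q ^ 3 := by nlinarith [Nat.mul_le_mul_left (q ^ 2) q1]
  have q4 : q ^ 3 ≤ q ^ 4 := by nlinarith [Nat.mul_le_mul_left (q ^ 3) q1]
  have q5 : q ^ 4 ≤ q ^ 5 := by nlinarith [Nat.mul_le_mul_left (q ^ 4) q1]
  have hZ : XB q N + n * (q * N * (2 + 4 * (q * q))) + q * N ≤ 16 * (n * (q ^ 4 * N)) := by
    have e1 : n * (q * N * (2 + 4 * (q * q))) = n * ((2 * q + 4 * q ^ 3) * N) := by ring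
    have e2 : n * ((2 * q + 4 * q ^ 3) * N) ≤ n * ((6 * q ^ 4) * N) :=
      Nat.mul_le_mul_left n (Nat.mul_le_mul_right N (by omega))
    have e3 : q * N ≤ q ^ 4 * N := Nat.mul_le_mul_right N (by omega)
    have e4 : q ^ 4 * N ≤ n * (q ^ 4 * N) := Nat.le_mul_of_pos_left _ hn
    have e5 : n * ((6 * q ^ 4) * N) = 6 * (n * (q ^ 4 * N)) := by ring
    have e6 : 9 * q ^ 4 * N = 9 * (q ^ 4 * N) := by ring
    rw [e1]
    omega
  set Z := XB q N + n * (q * N * (2 + 4 * (q * q))) + q * N with hZdef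
  set K := Fintype.card κ with hK
  have f1 : (q + K) * Z ≤ (1 + K) * (q * Z) := by
    have : (q + K) ≤ (1 + K) * q := by nlinarith
    calc (q + K) * Z ≤ ((1 + K) * q) * Z := Nat.mul_le_mul_right Z this
      _ = (1 + K) * (q * Z) := by ring
  have f2 : q * Z ≤ 16 * (n * (q ^ 5 * N)) := by
    calc q * Z ≤ q * (16 * (n * (q ^ 4 * N))) := Nat.mul_le_mul_left q hZ
      _ = 16 * (n * (q ^ 5 * N)) := by ring
  have f3 : XB q N ≤ 9 * (n * (q ^ 5 * N)) := by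
    have g1 : 9 * q ^ 4 * N ≤ 9 * (q ^ 5 * N) := by
      calc 9 * q ^ 4 * N = 9 * (q ^ 4 * N) := by ring
        _ ≤ 9 * (q ^ 5 * N) := Nat.mul_le_mul_left 9 (Nat.mul_le_mul_right N q5)
    have g2 : q ^ 5 * N ≤ n * (q ^ 5 * N) := Nat.le_mul_of_pos_left _ hn
    omega
  have f4 : q ≤ n * q ^ 5 := by
    have g1 : q ≤ q ^ 5 := by omega
    have g2 : q ^ 5 ≤ n * q ^ 5 := Nat.le_mul_of_pos_left _ hn
    omega
  have f5 : XB q N + q * Z + q ≤ 26 * n * q ^ 5 * (N + 1) := by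
    have g1 : 26 * n * q ^ 5 * (N + 1) = 26 * (n * (q ^ 5 * N)) + 26 * (n * q ^ 5) := by ring
    omega
  calc XB q N + (q + K) * Z + q ≤ XB q N + (1 + K) * (q * Z) + q := by omega
    _ ≤ (1 + K) * XB q N + (1 + K) * (q * Z) + (1 + K) * q := by nlinarith
    _ = (1 + K) * (XB q N + q * Z + q) := by ring
    _ ≤ (1 + K) * (26 * n * q ^ 5 * (N + 1)) := Nat.mul_le_mul_left _ f5
    _ = 26 * n * q ^ 5 * (N + 1) * (1 + K) := by ring

end Vale.Agent.P318.H653
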