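import Vale.Agent.P318.H653.Final4
import Vale.Agent.P318.H308.Main4
import Vale.Agent.P318.H336.SpecCut
import Vale.Agent.P318.H508.SpecSDP

/-!
# P318, Q2: `g(n) ≥ (log n)^c`
-/

namespace Vale.Agent.P318.H653

theorem gap_lower4 : ∃ c : ℝ, 0 < c ∧ ∃ n₀ : ℕ, ∀ n ≥ n₀, Real.log n ^ c ≤ H308.gap n :=
  H308.main_gap4 spec_code4 H336.spec_cut H508.spec_sdp

end Vale.Agent.P318.H653
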