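import Vale.Agent.P318.H283.PDef

/-!
# P318, tensor step: testable families of maps

`Tst D W0 h c N R` : the family `R` of linear maps `Y → F_2^a` is testable with at most `N` tests
`Y → F_2^D`; the twin `U` has size at most `c W`.

* `Tst.factor` : maps which factor through testable spaces may be added.
* `Tst.shrink` : with the condensers of `Y` itself in `R` the size of the twin is at most `2 W`.
-/

namespace Vale.Agent.P318.H653

open Finset
open Vale.Agent.P318.H937 (push sz Lossless)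
open Vale.Agent.P318.H283

section defs

variable {Y : Type} [AddCommGroup Y] [Module (ZMod 2) Y] [Fintype Y] {a : ℕ}

/-- testability of one family of maps -/
def Tst (D W0 h c : ℕ) {Y : Type} [AddCommGroup Y] [Module (ZMod 2) Y] [Fintype Y] {a : ℕ}
    (N : ℕ) {κ : Type} (R : κ → (Y →ₗ[ZMod 2] V2 a)) : Prop :=
  ∃ (ι : Type) (_ : Fintype ι) (T : ι → (Y →ₗ[ZMod 2] V2 D)), Fintype.card ι ≤ N ∧
    ∀ W : ℕ, h * W ≤ W0 → ∀ B : Y → ZMod 2, (∀ i, sz (push (T i) B) ≤ W) →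
      ∃ U : Y → ZMod 2, sz U ≤ c * W ∧ (∀ i, push (T i) U = push (T i) B) ∧
        ∀ k, push (R k) U = push (R k) B

theorem CodeFor.tst {D W0 h N : ℕ} (H : CodeFor a D W0 h Y N) {κ : Type} [Fintype κ]
    (R : κ → (Y →ₗ[ZMod 2] V2 a)) : Tst D W0 h 2 (N * (1 + Fintype.card κ)) R := H κ R

theorem codeFor_of_tst {D W0 h N : ℕ}
    (H : ∀ (κ : Type) [Fintype κ] (R : κ → (Y →ₗ[ZMod 2] V2 a)),
      Tst D W0 h 2 (N * (1 + Fintype.card κ)) R) : CodeFor a D W0 h Y N := fun κ _ R => H κ R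

theorem Tst.mono {D W0 h c N N' : ℕ} {κ κ' : Type} {R : κ → (Y →ₗ[ZMod 2] V2 a)}
    {R' : κ' → (Y →ₗ[ZMod 2] V2 a)} (H : Tst D W0 h c N R) (hN : N ≤ N')
    (hR : ∀ k', ∃ k, R' k' = R k) : Tst D W0 h c N' R' := by
  obtain ⟨ι, hι, T, hc, hT⟩ := H
  refine ⟨ι, hι, T, hc.trans hN, fun W hW B hB => ?_⟩
  obtain ⟨U, h1, h2, h3⟩ := hT W hW B hB
  refine ⟨U, h1, h2, fun k' => ?_⟩
  obtain ⟨k, hk⟩ := hR k'
  rw [hk]; exact h3 k

/-- `G` separates small measures. -/
def Sepa (W0 : ℕ) {γ : Type} (G : γ → (Y →ₗ[ZMod 2] V2 a)) : Prop :=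
  ∀ M M' : Y → ZMod 2, sz M + sz M' ≤ W0 → (∀ g, push (G g) M = push (G g) M') → M = M'

theorem Sepa.of_vloss [DecidableEq Y] {W0 q : ℕ} {e : ℝ} {F : Fin q → (Y →ₗ[ZMod 2] V2 a)}
    (h : VLoss W0 e F) (hq : 0 < q) (he : 2 * e < 1) : Sepa W0 F := by
  intro M M' hM hF
  have : (univ : Finset (Fin q)).Nonempty := ⟨⟨0, hq⟩, mem_univ _⟩
  exact lossless_ext this he h.single M M' hM (fun c _ => hF c)

theorem push_comp' {Y V V' : Type} [AddCommGroup Y] [Module (ZMod 2) Y] [Fintype Y]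
    [AddCommGroup V] [Module (ZMod 2) V] [Fintype V] [DecidableEq V]
    [AddCommGroup V'] [Module (ZMod 2) V'] [DecidableEq V'] (g : V →ₗ[ZMod 2] V')
    (f : Y →ₗ[ZMod 2] V) (μ : Y → ZMod 2) : push (g.comp f) μ = push g (push f μ) := by
  rw [push_push']
  rfl

theorem Sepa.comp [DecidableEq Y] {V : Type} [AddCommGroup V] [Module (ZMod 2) V] [Fintype V]
    [DecidableEq V] {W0 q : ℕ} {e : ℝ} {T : Fin q → (Y →ₗ[ZMod 2] V)} {γ : Type}
    {F : γ → (V →ₗ[ZMod 2] V2 a)}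
    (hT : Lossless univ (fun c (x : Y) => T c x) W0 e) (hF : Sepa W0 F) (hq : 0 < q)
    (he : 2 * e < 1) : Sepa W0 (fun p : Fin q × γ => (F p.2).comp (T p.1)) := by
  intro M M' hM hG
  have : (univ : Finset (Fin q)).Nonempty := ⟨⟨0, hq⟩, mem_univ _⟩
  refine lossless_ext this he hT M M' hM (fun c _ => ?_)
  refine hF _ _ ?_ (fun g => ?_)
  · have h1 := sz_push_le' (fun x => T c x) M
    have h2 := sz_push_le' (fun x => T c x) M'
    omega
  · have := hG (c, g)
    simp only [push_comp'] at this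
    exact this

end defs

/-- **Factor lemma.** -/
theorem Tst.factor {a D W0 h c1 c2 N1 N2 : ℕ} {Y Y' : Type} [AddCommGroup Y] [Module (ZMod 2) Y]
    [Fintype Y] [AddCommGroup Y'] [Module (ZMod 2) Y'] [Fintype Y'] [DecidableEq Y']
    {κ γ κ' C : Type} [Fintype C] {R : κ → (Y →ₗ[ZMod 2] V2 a)} {θ : C → (Y →ₗ[ZMod 2] Y')}
    {G : C → γ → (Y' →ₗ[ZMod 2] V2 a)} {R' : C → κ' → (Y' →ₗ[ZMod 2] V2 a)}
    (hsep : ∀ c, Sepa W0 (G c)) (hc : c1 + c2 ≤ h)
    (h1 : Tst D W0 h c1 N1 (Sum.elim R fun p : C × γ => (G p.1 p.2).comp (θ p.1)))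
    (h2 : ∀ c, Tst D W0 h c2 N2 (Sum.elim (G c) (R' c))) :
    Tst D W0 h c1 (N1 + Fintype.card C * N2)
      (Sum.elim R fun p : C × κ' => (R' p.1 p.2).comp (θ p.1)) := by
  obtain ⟨ι1, _, T1, hc1, hT1⟩ := h1
  choose ι2 hι2 T2 hc2 hT2 using h2
  refine ⟨ι1 ⊕ (Σ c, ι2 c), inferInstance,
    Sum.elim T1 (fun p => (T2 p.1 p.2).comp (θ p.1)), ?_, ?_⟩
  · rw [Fintype.card_sum, Fintype.card_sigma]
    refine Nat.add_le_add hc1 ?_
    calc ∑ c, Fintype.card (ι2 c) ≤ ∑ _c : C, N2 := sum_le_sum fun c _ => hc2 c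
      _ = Fintype.card C * N2 := by rw [sum_const, card_univ, smul_eq_mul]
  · intro W hW B hB
    obtain ⟨U, hU1, hU2, hU3⟩ := hT1 W hW B (fun i => hB (Sum.inl i))
    have key : ∀ c, ∃ U' : Y' → ZMod 2, push (θ c) U = U' ∧
        (∀ i, push (T2 c i) U' = push (T2 c i) (push (θ c) B)) ∧
        ∀ k, push (R' c k) U' = push (R' c k) (push (θ c) B) := by
      intro c
      obtain ⟨U', g1, g2, g3⟩ := hT2 c W hW (push (θ c) B) (fun i => by
        rw [← push_comp']; exact hB (Sum.inr ⟨c, i⟩))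
      refine ⟨U', ?_, g2, fun k => g3 (Sum.inr k)⟩
      refine hsep c _ _ ?_ (fun g => ?_)
      · have h3 := sz_push_le' (θ c) U
        have h4 : (c1 + c2) * W ≤ h * W := Nat.mul_le_mul_right W hc
        have h5 : c1 * W + c2 * W = (c1 + c2) * W := by ring
        omega
      · have h3 := hU3 (Sum.inr (c, g))
        have h4 := g3 (Sum.inl g)
        simp only [Sum.elim_inr, push_comp'] at h3
        simp only [Sum.elim_inl] at h4
        rw [h3, h4]
    refine ⟨U, hU1, ?_, ?_⟩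
    · rintro (i | ⟨c, i⟩)
      · exact hU2 i
      · obtain ⟨U', g1, g2, g3⟩ := key c
        simp only [Sum.elim_inr, push_comp']
        rw [g1]; exact g2 i
    · rintro (k | ⟨c, k⟩)
      · exact hU3 (Sum.inl k)
      · obtain ⟨U', g1, g2, g3⟩ := key c
        simp only [Sum.elim_inr, push_comp']
        rw [g1]; exact g3 k

/-- linear padding -/
theorem exists_pad (a D : ℕ) (h : a ≤ D) :
    ∃ f : V2 a →ₗ[ZMod 2] V2 D, Function.Injective f := by
  refine ⟨{ toFun := fun y i => if hi : i.1 < a then y ⟨i.1, hi⟩ else 0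
            map_add' := ?_, map_smul' := ?_ }, ?_⟩
  · intro x y
    funext i
    by_cases hi : i.1 < a
    · simp [hi]
    · simp [hi]
  · intro c x
    funext i
    by_cases hi : i.1 < a
    · simp [hi]
    · simp [hi]
  · intro x y hxy
    funext i
    have h1 := congrFun hxy ⟨i.1, lt_of_lt_of_le i.2 h⟩
    simpa using h1

theorem sz_push_inj {X Z : Type} [Fintype X] [DecidableEq X] [Fintype Z] [DecidableEq Z]
    (f : X → Z) (hf : Function.Injective f) (B : X → ZMod 2) : sz B ≤ sz (push f B) := by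
  have h3 := H770.card_iso_le_sz_push f B
  have h4 : H770.iso f (H770.sup B) = H770.sup B := by
    ext x
    rw [H770.mem_iso]
    exact ⟨fun hx => hx.1, fun hx => ⟨hx, fun x' _ hx' => hf hx'⟩⟩
  rw [h4] at h3
  exact h3

/-- **Shrink.** -/
theorem Tst.shrink {a D W0 h c N q : ℕ} {e : ℝ} {Y : Type} [AddCommGroup Y] [Module (ZMod 2) Y]
    [Fintype Y] [DecidableEq Y] {κ : Type} {R : κ → (Y →ₗ[ZMod 2] V2 a)}
    {F : Fin q → (Y →ₗ[ZMod 2] V2 a)} (hF : VLoss W0 e F) (hq : 0 < q) (he : 4 * e ≤ 1)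
    (haD : a ≤ D) (hc : c ≤ h) (H : Tst D W0 h c N (Sum.elim F R)) :
    Tst D W0 h 2 (N + q) R := by
  obtain ⟨ι, _, T, hN, hT⟩ := H
  obtain ⟨f, hf⟩ := exists_pad a D haD
  refine ⟨ι ⊕ Fin q, inferInstance, Sum.elim T (fun v => f.comp (F v)), ?_, ?_⟩
  · rw [Fintype.card_sum, Fintype.card_fin]; omega
  intro W hW B hB
  obtain ⟨U, h1, h2, h3⟩ := hT W hW B (fun i => hB (Sum.inl i))
  have hszU : sz U ≤ W0 := by
    have : c * W ≤ h * W := Nat.mul_le_mul_right W hc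
    omega
  refine ⟨U, ?_, ?_, fun k => h3 (Sum.inr k)⟩
  · have h4 := lossless_sz hF.single U hszU
    have h5 : ∀ v ∈ (univ : Finset (Fin q)), (sz (push (fun y => F v y) U) : ℝ) ≤ W := by
      intro v _
      have h6 := h3 (Sum.inl v)
      simp only [Sum.elim_inl] at h6
      have h7 : push (fun y => F v y) U = push (F v) B := h6
      rw [h7]
      have h8 := hB (Sum.inr v)
      simp only [Sum.elim_inr, push_comp'] at h8
      exact_mod_cast (sz_push_inj f hf _).trans h8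
    have h6 := sum_le_sum h5
    rw [sum_const, card_univ, Fintype.card_fin, nsmul_eq_mul] at h6
    rw [card_univ, Fintype.card_fin] at h4
    have hqR : (0 : ℝ) < q := by exact_mod_cast hq
    have h7 : (1 - 2 * e) * q * sz U ≤ q * W := h4.trans h6
    have h8 : (q : ℝ) * ((1 / 2) * sz U) ≤ q * W := by
      have h9 : (0 : ℝ) ≤ sz U := Nat.cast_nonneg _
      have h10 : (1 / 2 : ℝ) ≤ 1 - 2 * e := by linarith
      have h11 : (q : ℝ) * ((1 / 2) * sz U) ≤ (1 - 2 * e) * q * sz U := by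
        have : 0 ≤ (q : ℝ) * sz U := by positivity
        nlinarith
      linarith
    have h9 := le_of_mul_le_mul_left h8 hqR
    have h10 : (sz U : ℝ) ≤ 2 * W := by linarith
    exact_mod_cast h10
  · rintro (i | v)
    · exact h2 i
    · have h6 := h3 (Sum.inl v)
      simp only [Sum.elim_inl] at h6
      simp only [Sum.elim_inr, push_comp']
      rw [h6]

end Vale.Agent.P318.H653
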